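import Vale.Agent.P155.S743.One
import Vale.Agent.P155.E4.Main

/-!
# P155, TIGHT, (S5): `EV` holds
-/

namespace Vale.Agent.P155.S743

open Finset J T905 HT T802 T862 G45 S862

theorem me2 : ME2 := by
  intro C0 p a a1 ha h4 h1
  obtain ⟨c, hc, C, hC, R0, hR0, h⟩ := E4.me2_holds C0 p a a1 ha h4 h1
  refine ⟨c, hc, C, hC, R0, hR0, ?_⟩
  intro R hR T hfit
  obtain ⟨B, hB0, hB, h⟩ := h R hR T hfit
  refine ⟨B, hB0, hB, ?_⟩
  intro X hX ω hω O p0 n0 φ u hO hCP hin hp0 hn0 _ hφ hu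
  exact h X hX ω hω O p0 n0 φ u hO hCP hp0 hin hn0 hφ hu

/-- numeric: the two-strand error -/
theorem num2 {K0 n κ R : ℕ} {γ CT a0 : ℝ} (hγ1 : γ ≤ 1) (hCT : 0 ≤ CT)
    (hK : 1 ≤ K0) (hκ : 1 ≤ κ) (hκn : κ ≤ n) (hR : 1 ≤ R) (hn : (R : ℝ) ^ a0 ≤ n) :
    CT * ((((K0 * n : ℕ) : ℝ) / κ) ^ γ * ((K0 * n : ℕ) : ℝ) ^ (-(γ ^ 2 / 128))) ≤
      CT * K0 * ((n : ℝ) / κ) * (R : ℝ) ^ (-(a0 * (γ ^ 2 / 128))) := by
  have hκ0 : (0 : ℝ) < κ := by exact_mod_cast hκ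
  have hKr : (1 : ℝ) ≤ K0 := by exact_mod_cast hK
  have hκn' : (κ : ℝ) ≤ n := by exact_mod_cast hκn
  have hn0 : (0 : ℝ) < n := by linarith
  have hR0 : (0 : ℝ) < R := by exact_mod_cast hR
  have e : ((K0 * n : ℕ) : ℝ) = K0 * n := by push_cast; ring
  have h0 : (1 : ℝ) ≤ ((K0 * n : ℕ) : ℝ) / κ := by
    rw [e, le_div_iff₀ hκ0]
    nlinarith
  have h1 : (((K0 * n : ℕ) : ℝ) / κ) ^ γ ≤ K0 * ((n : ℝ) / κ) := by
    calc (((K0 * n : ℕ) : ℝ) / κ) ^ γ ≤ (((K0 * n : ℕ) : ℝ) / κ) ^ (1 : ℝ) :=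
          Real.rpow_le_rpow_of_exponent_le h0 hγ1
      _ = K0 * ((n : ℝ) / κ) := by rw [Real.rpow_one, e, mul_div_assoc]
  have h2 : ((K0 * n : ℕ) : ℝ) ^ (-(γ ^ 2 / 128)) ≤ (R : ℝ) ^ (-(a0 * (γ ^ 2 / 128))) := by
    have h3 : (R : ℝ) ^ (-(a0 * (γ ^ 2 / 128))) = ((R : ℝ) ^ a0) ^ (-(γ ^ 2 / 128)) := by
      rw [← Real.rpow_mul hR0.le]
      congr 1
      ring
    rw [h3]
    apply Real.rpow_le_rpow_of_nonpos (by positivity)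
    · rw [e]
      nlinarith
    · have : 0 ≤ γ ^ 2 := sq_nonneg γ
      linarith
  calc CT * ((((K0 * n : ℕ) : ℝ) / κ) ^ γ * ((K0 * n : ℕ) : ℝ) ^ (-(γ ^ 2 / 128)))
      ≤ CT * ((K0 * ((n : ℝ) / κ)) * (R : ℝ) ^ (-(a0 * (γ ^ 2 / 128)))) :=
        mul_le_mul_of_nonneg_left (mul_le_mul h1 h2 (by positivity) (by positivity)) hCT
    _ = _ := by ring

/-- numeric: the scale `κ` below the cut-off -/
theorem num4 {K0 n κ R s : ℕ} {a a0 c C : ℝ} (hK : 1 ≤ K0) (hκ : 1 ≤ κ) (hκn : κ ≤ n) (hR : 1 ≤ R)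
    (hn : (R : ℝ) ^ a0 ≤ n) (hs : (s : ℝ) ≤ 2 * K0 * (R : ℝ) ^ a) (hκs : κ < 8 * s)
    (ha : 2 * a ≤ a0) (hc : 2 * c ≤ a0) (hC : 16 * (K0 : ℝ) ≤ C) :
    1 ≤ C * ((n : ℝ) / κ) ^ C * (R : ℝ) ^ (-c) := by
  have hκ0 : (0 : ℝ) < κ := by exact_mod_cast hκ
  have hKr : (1 : ℝ) ≤ K0 := by exact_mod_cast hK
  have hK0 : (0 : ℝ) < K0 := by linarith
  have hκn' : (κ : ℝ) ≤ n := by exact_mod_cast hκn
  have hn0 : (0 : ℝ) < n := by linarith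
  have hRr : (1 : ℝ) ≤ R := by exact_mod_cast hR
  have hR0 : (0 : ℝ) < R := by linarith
  have hC0 : 0 < C := by linarith
  have hy : (1 : ℝ) ≤ (n : ℝ) / κ := by rwa [le_div_iff₀ hκ0, one_mul]
  have h1 : (n : ℝ) / κ ≤ ((n : ℝ) / κ) ^ C := by
    calc (n : ℝ) / κ = ((n : ℝ) / κ) ^ (1 : ℝ) := (Real.rpow_one _).symm
      _ ≤ _ := Real.rpow_le_rpow_of_exponent_le hy (by linarith)
  have h2 : (κ : ℝ) ≤ 16 * K0 * (R : ℝ) ^ a := by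
    have : (κ : ℝ) ≤ 8 * s := by exact_mod_cast hκs.le
    linarith
  have h3 : (R : ℝ) ^ (a0 / 2) / (16 * K0) ≤ (n : ℝ) / κ := by
    rw [div_le_div_iff₀ (by positivity) hκ0]
    calc (R : ℝ) ^ (a0 / 2) * κ ≤ (R : ℝ) ^ (a0 / 2) * (16 * K0 * (R : ℝ) ^ a) :=
          mul_le_mul_of_nonneg_left h2 (by positivity)
      _ ≤ (R : ℝ) ^ (a0 / 2) * (16 * K0 * (R : ℝ) ^ (a0 / 2)) := by
          refine mul_le_mul_of_nonneg_left (mul_le_mul_of_nonneg_left ?_ (by positivity))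
            (by positivity)
          exact Real.rpow_le_rpow_of_exponent_le hRr (by linarith)
      _ = (R : ℝ) ^ a0 * (16 * K0) := by
          have : (R : ℝ) ^ a0 = (R : ℝ) ^ (a0 / 2) * (R : ℝ) ^ (a0 / 2) := by
            rw [← Real.rpow_add hR0]
            congr 1
            ring
          rw [this]
          ring
      _ ≤ n * (16 * K0) := mul_le_mul_of_nonneg_right hn (by positivity)
  have h4 : (R : ℝ) ^ c ≤ (R : ℝ) ^ (a0 / 2) := Real.rpow_le_rpow_of_exponent_le hRr (by linarith)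
  have h5 : (R : ℝ) ^ c * (R : ℝ) ^ (-c) = 1 := by
    rw [← Real.rpow_add hR0]
    simp
  have h6 : 0 < (R : ℝ) ^ (-c) := by positivity
  calc (1 : ℝ) = (16 * K0) * ((R : ℝ) ^ c / (16 * K0)) * (R : ℝ) ^ (-c) := by
        field_simp
        linarith
    _ ≤ C * ((n : ℝ) / κ) ^ C * (R : ℝ) ^ (-c) := by
        refine mul_le_mul_of_nonneg_right (mul_le_mul hC ?_ (by positivity) hC0.le) h6.le
        refine le_trans ?_ (h3.trans h1)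
        exact div_le_div_of_nonneg_right h4 (by positivity)

/-- numeric: `R` small -/
theorem num5 {n κ R R2 : ℕ} {c C : ℝ} (hκ : 1 ≤ κ) (hκn : κ ≤ n) (hR : 1 ≤ R) (hR2 : R < R2)
    (hc : c ≤ 1) (hC : (R2 : ℝ) ≤ C) :
    1 ≤ C * ((n : ℝ) / κ) ^ C * (R : ℝ) ^ (-c) := by
  have hκ0 : (0 : ℝ) < κ := by exact_mod_cast hκ
  have hκn' : (κ : ℝ) ≤ n := by exact_mod_cast hκn
  have hRr : (1 : ℝ) ≤ R := by exact_mod_cast hR
  have hR0 : (0 : ℝ) < R := by linarith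
  have hRR : (R : ℝ) ≤ R2 := by exact_mod_cast hR2.le
  have hC0 : 0 < C := by linarith
  have hy : (1 : ℝ) ≤ (n : ℝ) / κ := by rwa [le_div_iff₀ hκ0, one_mul]
  have h1 : (1 : ℝ) ≤ ((n : ℝ) / κ) ^ C := Real.one_le_rpow hy hC0.le
  have h2 : (R : ℝ) ^ (-(1 : ℝ)) ≤ (R : ℝ) ^ (-c) :=
    Real.rpow_le_rpow_of_exponent_le hRr (by linarith)
  have h3 : (R : ℝ) * (R : ℝ) ^ (-(1 : ℝ)) = 1 := by
    rw [Real.rpow_neg_one]
    field_simp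
  calc (1 : ℝ) = (R : ℝ) * (R : ℝ) ^ (-(1 : ℝ)) := h3.symm
    _ ≤ (C * 1) * (R : ℝ) ^ (-c) := by
        refine mul_le_mul (by linarith) h2 (by positivity) (by linarith)
    _ ≤ _ := by
        refine mul_le_mul_of_nonneg_right (mul_le_mul_of_nonneg_left h1 hC0.le) (by positivity)

open Classical in
/-- **`EV` holds** -/
theorem ev_holds : EV := by
  intro a0 ha0 A
  obtain ⟨β, hβ, K1, hK1, hdet⟩ := det_one
  obtain ⟨γ, hγ, hγ1, htwo⟩ := two_err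
  obtain ⟨γE, hγE, hγE1, KE, hKE, hen⟩ := energy_sweep
  obtain ⟨K0, hK0⟩ : ∃ K0 : ℕ, K0 = 2 * (A + 1) := ⟨_, rfl⟩
  have hK01 : 1 ≤ K0 := by omega
  have ha01 : 0 < min a0 1 := lt_min ha0 one_pos
  obtain ⟨CT, hCT, htwo⟩ := htwo (min a0 1) 1 686000000 (32 ^ 4) ha01 one_pos (by norm_num)
  obtain ⟨a, ha, ha8, R1, hR1, hsc⟩ := scales ha0 hγ hγ1 hCT hK01
  obtain ⟨c1, hc1, C1, hC1, R0, hR0, hev⟩ := eval_pr me2 ha0 A ha (by linarith)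
  have haa : 8 * a ≤ a0 := ha8.trans (min_le_left _ _)
  set R2 : ℕ := max R0 R1 with hR2
  set b : ℝ := min β γE with hb
  set c : ℝ := min (min 1 c1) (min (a0 / 2) (a0 * (γ ^ 2 / 128))) with hc
  obtain ⟨C, hC1', hC⟩ := exists_ge [16 * (K0 : ℝ), (R2 : ℝ), K1, CT * K0, 256 * (KE * 32),
    CT + 256 * C1, 12]
  simp only [List.mem_cons, List.not_mem_nil, or_false, forall_eq_or_imp, forall_eq] at hC
  obtain ⟨k1, k2, k3, k4, k5, k6, k7⟩ := hC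
  have hC0 : 0 < C := by linarith
  have hb0 : 0 < b := lt_min hβ hγE
  have hc0 : 0 < c := lt_min (lt_min one_pos hc1) (lt_min (by linarith) (by positivity))
  have c1' : c ≤ 1 := (min_le_left _ _).trans (min_le_left _ _)
  have c2' : c ≤ c1 := (min_le_left _ _).trans (min_le_right _ _)
  have c3' : c ≤ a0 / 2 := (min_le_right _ _).trans (min_le_left _ _)
  have c4' : c ≤ a0 * (γ ^ 2 / 128) := (min_le_right _ _).trans (min_le_right _ _)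
  refine ⟨b, c, C, hb0, hc0, hC0, ?_⟩
  intro T R n Q t0 mL mR hR hfit hn G κ j J hκ h80 hj hjJ l hl
  have hκn : κ ≤ n := by omega
  have hκ0 : (0 : ℝ) < κ := by exact_mod_cast hκ
  have hκn' : (κ : ℝ) ≤ n := by exact_mod_cast hκn
  have hn0 : (0 : ℝ) < n := by linarith
  have hn1 : 1 ≤ n := by omega
  have hRr : (1 : ℝ) ≤ R := by exact_mod_cast hR
  have hRpos : (0 : ℝ) < R := by linarith
  have hx1 : (κ : ℝ) / n ≤ 1 := by rwa [div_le_one hn0]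
  have hx0 : 0 < (κ : ℝ) / n := by positivity
  have hy1 : 1 ≤ (n : ℝ) / κ := by rwa [le_div_iff₀ hκ0, one_mul]
  have hxb : 0 ≤ C * ((κ : ℝ) / n) ^ b := by positivity
  by_cases hRs : R < R2
  · have h1 := num5 (c := c) hκ hκn hR hRs c1' k2
    have h2 := E.Pr_le_one T.V (fun ω => Q.Has T.V t0 ω J ∧
      1 / 16 + C * ((κ : ℝ) / n) ^ b + C * ((n : ℝ) / κ) ^ C * (R : ℝ) ^ (-c) +
      C * (((n : ℝ) * κ)⁻¹ * ∑ i : Fin (mm mL mR κ), ((badF T Q t0 ω j J mL κ i).card : ℝ)) <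
      |mass ω (T802.phi (Q.cj T.V t0 ω j) mL (mm mL mR κ) κ) (l ω) -
      (if upS Q ω (Q.cj T.V t0 ω J) (l ω) then 1 else 0)|)
    linarith
  push Not at hRs
  have hRR0 : R0 ≤ R := (le_max_left _ _).trans hRs
  have hRR1 : R1 ≤ R := (le_max_right _ _).trans hRs
  obtain ⟨s1, s2, s3, s4, s5, s6, s7⟩ := hsc R hRR1 n hn
  obtain ⟨s, hs⟩ : ∃ s : ℕ, s = ⌈((K0 * R : ℕ) : ℝ) ^ a⌉₊ := ⟨_, rfl⟩
  obtain ⟨ρ0, hρ0⟩ : ∃ ρ0 : ℕ, ρ0 = ⌈((K0 * n : ℕ) : ℝ) ^ (1 - γ ^ 2 / 1024)⌉₊ := ⟨_, rfl⟩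
  rw [← hs] at s1 s2 s3 s4 s7
  rw [← hρ0] at s4 s5 s6
  by_cases hκs : κ < 8 * s
  · have h1 := num4 (c := c) (C := C) hK01 hκ hκn hR hn s7 hκs (by linarith) (by linarith) k1
    have h2 := E.Pr_le_one T.V (fun ω => Q.Has T.V t0 ω J ∧
      1 / 16 + C * ((κ : ℝ) / n) ^ b + C * ((n : ℝ) / κ) ^ C * (R : ℝ) ^ (-c) +
      C * (((n : ℝ) * κ)⁻¹ * ∑ i : Fin (mm mL mR κ), ((badF T Q t0 ω j J mL κ i).card : ℝ)) <
      |mass ω (T802.phi (Q.cj T.V t0 ω j) mL (mm mL mR κ) κ) (l ω) -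
      (if upS Q ω (Q.cj T.V t0 ω J) (l ω) then 1 else 0)|)
    linarith
  push Not at hκs
  -- the main case
  obtain ⟨hm1, hm2, hm3⟩ := mm_spec (κ := κ) (n := n) hκ (by omega) G.m
  have S := mk_setup G (κ := κ) (ρ0 := ρ0) (D := 2 * s + 1) hκ h80 s4 s5
  have hnR := n_le_R hfit G
  have hNN : (A + 1) * n ≤ K0 * n := Nat.mul_le_mul_right _ (by omega)
  have hR2' : (R : ℝ) ^ (-c1) ≤ (R : ℝ) ^ (-c) := Real.rpow_le_rpow_of_exponent_le hRr (by linarith)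
  have hR3' : (R : ℝ) ^ (-(1 : ℝ)) ≤ (R : ℝ) ^ (-c) :=
    Real.rpow_le_rpow_of_exponent_le hRr (by linarith)
  have hR4' : (R : ℝ) ^ (-(a0 * (γ ^ 2 / 128))) ≤ (R : ℝ) ^ (-c) :=
    Real.rpow_le_rpow_of_exponent_le hRr (by linarith)
  have hr0 : 0 < (R : ℝ) ^ (-c) := by positivity
  have hyC : (n : ℝ) / κ ≤ ((n : ℝ) / κ) ^ C := by
    calc (n : ℝ) / κ = ((n : ℝ) / κ) ^ (1 : ℝ) := (Real.rpow_one _).symm
      _ ≤ _ := Real.rpow_le_rpow_of_exponent_le hy1 (by linarith)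
  have hyC12 : ((n : ℝ) / κ) ^ 12 ≤ ((n : ℝ) / κ) ^ C := by
    calc ((n : ℝ) / κ) ^ 12 = ((n : ℝ) / κ) ^ (12 : ℝ) := by
          rw [← Real.rpow_natCast]; norm_num
      _ ≤ _ := Real.rpow_le_rpow_of_exponent_le hy1 (by linarith)
  have hyC1 : (1 : ℝ) ≤ ((n : ℝ) / κ) ^ C := hy1.trans hyC
  have hxβ : ((κ : ℝ) / n) ^ β ≤ ((κ : ℝ) / n) ^ b :=
    Real.rpow_le_rpow_of_exponent_ge hx0 hx1 (min_le_left _ _)
  have hxγ : ((κ : ℝ) / n) ^ γE ≤ ((κ : ℝ) / n) ^ b :=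
    Real.rpow_le_rpow_of_exponent_ge hx0 hx1 (min_le_right _ _)
  have hone := num2 (CT := CT) hγ1 hCT.le hK01 hκ hκn hR hn
  have hone' : CT * K0 * ((n : ℝ) / κ) * (R : ℝ) ^ (-(a0 * (γ ^ 2 / 128))) ≤
      C * ((n : ℝ) / κ) ^ C * (R : ℝ) ^ (-c) := by
    refine mul_le_mul (mul_le_mul k4 hyC (by positivity) hC0.le) hR4' (by positivity)
      (by positivity)
  -- probability of the bad event
  have hP1 : Pr T.V (BadE T Q (K0 * n) κ s ρ0 (2 * s + 1) 686000000 γ CT) ≤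
      CT * (((n : ℝ) / κ) ^ C * (R : ℝ) ^ (-c)) := by
    have h1 := htwo (K0 * R) T (Nat.mul_pos hK01 hR) (fits_mono hfit (Nat.le_mul_of_pos_left _ hK01))
      (Q.x0, Q.y0) (K0 * n) κ s ρ0 (2 * s + 1) (scale_le hK01 hR hn) (Nat.mul_le_mul_left _ hnR)
      (hκn.trans (Nat.le_mul_of_pos_left _ hK01)) (by omega) hκs s2 s3
      (by rw [hρ0]; exact Nat.le_ceil _)
    refine le_trans h1 (mul_le_mul_of_nonneg_left ?_ hCT.le)
    have h2 : ((K0 * R : ℕ) : ℝ) ^ (-(1 : ℝ)) ≤ (R : ℝ) ^ (-(1 : ℝ)) := by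
      apply Real.rpow_le_rpow_of_nonpos hRpos _ (by norm_num)
      exact_mod_cast Nat.le_mul_of_pos_left _ hK01
    refine (h2.trans hR3').trans ?_
    exact le_mul_of_one_le_left hr0.le hyC1
  -- the evaluation
  have hP2 := hev R n T Q t0 mL mR hRR0 hfit hn G (Q.y0 - n) mL (mm mL mR κ) κ (n / 4) ρ0 (2 * s + 1)
    S (by omega) hm1 j J hj hjJ (KE * (((mm mL mR κ : ℕ) : ℝ)⁻¹) ^ γE) (1 / 16) (by norm_num)
    (by positivity) (fun ω hω hh => hen T Q t0 (Q.y0 - n) mL (mm mL mR κ) κ (n / 4) ρ0 (2 * s + 1) S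
      ω hω j J hj hjJ hh (by omega) hm1 _ (pot_spec (oe_finite T _) _))
    (fun ω => Q.Has T.V t0 ω J) (fun ω _ ω' _ h => propext (Uns.has (ω := ω) (ω' := ω') h J))
    (fun ω hω h => has_mono hjJ h) l (fun ω hω h => (hl ω hω h).1)
  rw [← hK0, ← hs] at hP2
  have hm4 : KE * (((mm mL mR κ : ℕ) : ℝ)⁻¹) ^ γE ≤ KE * 32 * ((κ : ℝ) / n) ^ b := by
    rw [mul_assoc]
    refine mul_le_mul_of_nonneg_left ?_ hKE.le
    calc (((mm mL mR κ : ℕ) : ℝ)⁻¹) ^ γE ≤ (32 * ((κ : ℝ) / n)) ^ γE :=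
          Real.rpow_le_rpow (by positivity) hm3 hγE.le
      _ = 32 ^ γE * ((κ : ℝ) / n) ^ γE := Real.mul_rpow (by norm_num) hx0.le
      _ ≤ 32 * ((κ : ℝ) / n) ^ b := by
          refine mul_le_mul ?_ hxγ (by positivity) (by norm_num)
          calc (32 : ℝ) ^ γE ≤ 32 ^ (1 : ℝ) :=
                Real.rpow_le_rpow_of_exponent_le (by norm_num) (by linarith)
            _ = 32 := Real.rpow_one _
  have hm5 : C1 * ((n : ℝ) / κ) ^ 12 * (R : ℝ) ^ (-c1) ≤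
      C1 * (((n : ℝ) / κ) ^ C * (R : ℝ) ^ (-c)) := by
    rw [mul_assoc]
    exact mul_le_mul_of_nonneg_left (mul_le_mul hyC12 hR2' (by positivity) (by positivity)) hC1
  refine le_trans (E.Pr_mono (q := fun ω => BadE T Q (K0 * n) κ s ρ0 (2 * s + 1) 686000000 γ CT ω ∨
    (Q.Has T.V t0 ω J ∧ 1 / 16 < |mass ω (fx T (Q.Ej T.V t0 ω J) (Q.cj T.V t0 ω j) mL
      (mm mL mR κ) κ s) (l ω)|)) ?_) (le_trans (E.Pr_or_le _ _ _) ?_)
  · intro ω hω hh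
    obtain ⟨hH, hlt⟩ := hh
    by_cases hbad : BadE T Q (K0 * n) κ s ρ0 (2 * s + 1) 686000000 γ CT ω
    · exact Or.inl hbad
    · right
      refine ⟨hH, ?_⟩
      obtain ⟨l1, l2⟩ := hl ω hω hH
      have h := hdet T Q t0 mL mR A n G κ ρ0 s (K0 * n) γ CT (by omega) h80 s4 s5 s1 hκs s6 hNN ω hω
        hbad j J hj hjJ hH (l ω) l1 l2
      have hz : 0 ≤ ((n : ℝ) * κ)⁻¹ *
          ∑ i : Fin (mm mL mR κ), ((badF T Q t0 ω j J mL κ i).card : ℝ) :=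
        mul_nonneg (by positivity) (Finset.sum_nonneg fun _ _ => Nat.cast_nonneg _)
      have e1 : K1 * ((κ : ℝ) / n) ^ β ≤ C * ((κ : ℝ) / n) ^ b :=
        mul_le_mul k3 hxβ (by positivity) hC0.le
      have e2 : K1 * (((n : ℝ) * κ)⁻¹ *
          ∑ i : Fin (mm mL mR κ), ((badF T Q t0 ω j J mL κ i).card : ℝ)) ≤
          C * (((n : ℝ) * κ)⁻¹ *
          ∑ i : Fin (mm mL mR κ), ((badF T Q t0 ω j J mL κ i).card : ℝ)) :=
        mul_le_mul_of_nonneg_right k3 hz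
      have h' : |mass ω (T802.phi (Q.cj T.V t0 ω j) mL (mm mL mR κ) κ) (l ω) -
          (if upS Q ω (Q.cj T.V t0 ω J) (l ω) then 1 else 0)| ≤
        |mass ω (fx T (Q.Ej T.V t0 ω J) (Q.cj T.V t0 ω j) mL (mm mL mR κ) κ s) (l ω)| +
        K1 * ((κ : ℝ) / n) ^ β +
        CT * ((((K0 * n : ℕ) : ℝ) / κ) ^ γ * ((K0 * n : ℕ) : ℝ) ^ (-(γ ^ 2 / 128))) +
        K1 * (((n : ℝ) * κ)⁻¹ *
          ∑ i : Fin (mm mL mR κ), ((badF T Q t0 ω j J mL κ i).card : ℝ)) := h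
      linarith
  · have q1 : ((1 / 16 : ℝ) ^ 2)⁻¹ = 256 := by norm_num
    rw [q1] at hP2
    have q2 : 256 * (KE * 32) * ((κ : ℝ) / n) ^ b ≤ C * ((κ : ℝ) / n) ^ b :=
      mul_le_mul_of_nonneg_right k5 (by positivity)
    have q3 : (CT + 256 * C1) * (((n : ℝ) / κ) ^ C * (R : ℝ) ^ (-c)) ≤
        C * (((n : ℝ) / κ) ^ C * (R : ℝ) ^ (-c)) :=
      mul_le_mul_of_nonneg_right k6 (by positivity)
    have q4 : C * ((n : ℝ) / κ) ^ C * (R : ℝ) ^ (-c) =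
        C * (((n : ℝ) / κ) ^ C * (R : ℝ) ^ (-c)) := by ring
    rw [q4]
    linarith

end Vale.Agent.P155.S743
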