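import Vale.Agent.P155.G45.Cut

/-!
# P155, TIGHT, (S5): the standard bump of radius `κ` and mass `1`
-/

namespace Vale.Agent.P155.S743

open Finset G45

/-! ### averaging preserves the total mass -/

theorem finite_shift {f : Pt → ℝ} (hf : f.support.Finite) (v : Pt) :
    (Function.support (fun z : Pt => f (z.1 + v.1, z.2 + v.2))).Finite := by
  have hinj : Function.Injective (fun z : Pt => ((z.1 + v.1, z.2 + v.2) : Pt)) := by
    intro a b h
    simp only [Prod.mk.injEq] at h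
    exact Prod.ext (by omega) (by omega)
  exact hf.preimage hinj.injOn

theorem finsum_shift (f : Pt → ℝ) (v : Pt) :
    ∑ᶠ z : Pt, f (z.1 + v.1, z.2 + v.2) = ∑ᶠ z : Pt, f z := by
  exact finsum_comp_equiv (f := f) (Equiv.addRight v)

theorem AvX_fin {m : ℕ} {f : Pt → ℝ} (hf : f.support.Finite) : (AvX m f).support.Finite := by
  refine ((Finset.range m).finite_toSet.biUnion
    (fun i _ => finite_shift hf ((i : ℤ), 0))).subset ?_
  intro z hz
  by_contra hcon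
  apply hz
  simp only [Set.mem_iUnion, Function.mem_support, not_exists, not_not] at hcon
  unfold AvX
  rw [Finset.sum_eq_zero, mul_zero]
  intro i hi
  have := hcon i (by simpa using hi)
  simpa using this

theorem AvY_fin {m : ℕ} {f : Pt → ℝ} (hf : f.support.Finite) : (AvY m f).support.Finite := by
  refine ((Finset.range m).finite_toSet.biUnion
    (fun i _ => finite_shift hf (0, (i : ℤ)))).subset ?_
  intro z hz
  by_contra hcon
  apply hz
  simp only [Set.mem_iUnion, Function.mem_support, not_exists, not_not] at hcon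
  unfold AvY
  rw [Finset.sum_eq_zero, mul_zero]
  intro i hi
  have := hcon i (by simpa using hi)
  simpa using this

theorem AvX_mass {m : ℕ} (hm : 1 ≤ m) {f : Pt → ℝ} (hf : f.support.Finite) :
    ∑ᶠ z, AvX m f z = ∑ᶠ z, f z := by
  have hm0 : (0 : ℝ) < m := by exact_mod_cast hm
  unfold AvX
  rw [← mul_finsum, finsum_sum_comm]
  · have : ∀ i ∈ range m, ∑ᶠ z : Pt, f (z.1 + i, z.2) = ∑ᶠ z, f z := by
      intro i _
      have := finsum_shift f ((i : ℤ), 0)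
      simpa using this
    rw [Finset.sum_congr rfl this, Finset.sum_const, Finset.card_range, nsmul_eq_mul]
    field_simp
  · intro i _
    have := finite_shift hf ((i : ℤ), 0)
    unfold Function.HasFiniteSupport
    simpa using this

theorem AvY_mass {m : ℕ} (hm : 1 ≤ m) {f : Pt → ℝ} (hf : f.support.Finite) :
    ∑ᶠ z, AvY m f z = ∑ᶠ z, f z := by
  have hm0 : (0 : ℝ) < m := by exact_mod_cast hm
  unfold AvY
  rw [← mul_finsum, finsum_sum_comm]
  · have : ∀ i ∈ range m, ∑ᶠ z : Pt, f (z.1, z.2 + i) = ∑ᶠ z, f z := by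
      intro i _
      have := finsum_shift f (0, (i : ℤ))
      simpa using this
    rw [Finset.sum_congr rfl this, Finset.sum_const, Finset.card_range, nsmul_eq_mul]
    field_simp
  · intro i _
    have := finite_shift hf (0, (i : ℤ))
    unfold Function.HasFiniteSupport
    simpa using this

theorem Av_mass {m : ℕ} (hm : 1 ≤ m) {f : Pt → ℝ} (hf : f.support.Finite) :
    (Av m f).support.Finite ∧ ∑ᶠ z, Av m f z = ∑ᶠ z, f z := by
  have h1 : ∀ n, ((AvY m)^[n] f).support.Finite ∧ ∑ᶠ z, (AvY m)^[n] f z = ∑ᶠ z, f z := by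
    intro n
    induction n with
    | zero => exact ⟨hf, rfl⟩
    | succ n ih =>
      rw [Function.iterate_succ_apply']
      exact ⟨AvY_fin ih.1, (AvY_mass hm ih.1).trans ih.2⟩
  have h2 : ∀ n, ((AvX m)^[n] ((AvY m)^[4] f)).support.Finite ∧
      ∑ᶠ z, (AvX m)^[n] ((AvY m)^[4] f) z = ∑ᶠ z, f z := by
    intro n
    induction n with
    | zero => exact h1 4
    | succ n ih =>
      rw [Function.iterate_succ_apply']
      exact ⟨AvX_fin ih.1, (AvX_mass hm ih.1).trans ih.2⟩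
  exact h2 4

/-! ### the bump -/

open Classical in
/-- uniform distribution on a square of side `m` -/
noncomputable def sq0 (m : ℕ) (z : Pt) : ℝ :=
  if 0 ≤ z.1 ∧ z.1 < m ∧ 0 ≤ z.2 ∧ z.2 < m then ((m : ℝ) ^ 2)⁻¹ else 0

/-- the bump of radius `κ` centred at `p` -/
noncomputable def bump (κ : ℕ) (p : Pt) (x : Pt) : ℝ :=
  Av (κ / 5) (sq0 (κ / 5)) (x.1 - p.1, x.2 - p.2)

theorem sq0_nonneg (m : ℕ) (z : Pt) : 0 ≤ sq0 m z := by
  unfold sq0
  split_ifs <;> positivity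

theorem sq0_le (m : ℕ) (z : Pt) : |sq0 m z| ≤ ((m : ℝ) ^ 2)⁻¹ := by
  rw [abs_of_nonneg (sq0_nonneg m z)]
  unfold sq0
  split_ifs
  · exact le_rfl
  · positivity

theorem sq0_sum {m : ℕ} (hm : 1 ≤ m) : (sq0 m).support.Finite ∧ ∑ᶠ z, sq0 m z = 1 := by
  classical
  have hm0 : (0 : ℝ) < m := by exact_mod_cast hm
  have hs : (sq0 m).support ⊆ ((Finset.Ico (0 : ℤ) m ×ˢ Finset.Ico (0 : ℤ) m : Finset Pt) : Set Pt) := by
    intro z hz
    by_contra hcon
    apply hz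
    unfold sq0
    rw [if_neg]
    intro h
    apply hcon
    rw [Finset.mem_coe, Finset.mem_product, Finset.mem_Ico, Finset.mem_Ico]
    exact ⟨⟨h.1, h.2.1⟩, h.2.2.1, h.2.2.2⟩
  refine ⟨(Finset.finite_toSet _).subset hs, ?_⟩
  rw [finsum_eq_sum_of_support_subset _ hs]
  have : ∀ z ∈ (Finset.Ico (0 : ℤ) m ×ˢ Finset.Ico (0 : ℤ) m : Finset Pt),
      sq0 m z = ((m : ℝ) ^ 2)⁻¹ := by
    intro z hz
    rw [Finset.mem_product, Finset.mem_Ico, Finset.mem_Ico] at hz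
    unfold sq0
    rw [if_pos ⟨hz.1.1, hz.1.2, hz.2.1, hz.2.2⟩]
  rw [Finset.sum_congr rfl this, Finset.sum_const, Finset.card_product, nsmul_eq_mul]
  simp only [Int.card_Ico, sub_zero, Int.toNat_natCast]
  push_cast
  field_simp

theorem bump_nonneg (κ : ℕ) (p x : Pt) : 0 ≤ bump κ p x := Av_nonneg (sq0_nonneg _) _

theorem bump_supp {κ : ℕ} (hκ : 5 ≤ κ) {p x : Pt} (h : bump κ p x ≠ 0) : x ∈ box p κ := by
  by_contra hcon
  apply h
  unfold bump
  have hm : 1 ≤ κ / 5 := by omega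
  apply Av_eq_const hm
  intro i j hi hj
  unfold sq0
  rw [if_neg]
  rintro ⟨h1, h2, h3, h4⟩
  apply hcon
  simp only at h1 h2 h3 h4
  unfold box
  rw [Finset.mem_product, Finset.mem_Icc, Finset.mem_Icc]
  refine ⟨⟨?_, ?_⟩, ?_, ?_⟩ <;> omega

theorem bump_fin {κ : ℕ} (hκ : 5 ≤ κ) (p : Pt) : (bump κ p).support.Finite :=
  (Finset.finite_toSet (box p κ)).subset fun _ hx => by exact_mod_cast bump_supp hκ hx

theorem bump_mass {κ : ℕ} (hκ : 5 ≤ κ) (p : Pt) : ∑ᶠ x, bump κ p x = 1 := by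
  have hm : 1 ≤ κ / 5 := by omega
  obtain ⟨h1, h2⟩ := sq0_sum hm
  have h3 := finsum_shift (Av (κ / 5) (sq0 (κ / 5))) (-p.1, -p.2)
  have h4 : ∑ᶠ x, bump κ p x = ∑ᶠ z : Pt, Av (κ / 5) (sq0 (κ / 5)) (z.1 + (-p.1), z.2 + (-p.2)) := rfl
  rw [h4, h3, (Av_mass hm h1).2, h2]

theorem bump_sum {κ : ℕ} (hκ : 5 ≤ κ) (p : Pt) {S : Finset Pt} (hS : box p κ ⊆ S) :
    ∑ x ∈ S, bump κ p x = 1 := by
  rw [← bump_mass hκ p, finsum_eq_sum_of_support_subset]
  intro x hx
  exact_mod_cast hS (bump_supp hκ hx)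

theorem Dx_shift (f : Pt → ℝ) (p : Pt) :
    Dx (fun x => f (x.1 - p.1, x.2 - p.2)) = fun x => Dx f (x.1 - p.1, x.2 - p.2) := by
  funext x
  unfold Dx
  simp only [add_sub_right_comm]

theorem Dy_shift (f : Pt → ℝ) (p : Pt) :
    Dy (fun x => f (x.1 - p.1, x.2 - p.2)) = fun x => Dy f (x.1 - p.1, x.2 - p.2) := by
  funext x
  unfold Dy
  simp only [add_sub_right_comm]

theorem D_shift (f : Pt → ℝ) (p : Pt) (a b : ℕ) :
    Dx^[a] (Dy^[b] (fun x => f (x.1 - p.1, x.2 - p.2))) =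
      fun x => (Dx^[a] (Dy^[b] f)) (x.1 - p.1, x.2 - p.2) := by
  have h1 : ∀ b (f : Pt → ℝ), Dy^[b] (fun x => f (x.1 - p.1, x.2 - p.2)) =
      fun x => (Dy^[b] f) (x.1 - p.1, x.2 - p.2) := by
    intro b
    induction b with
    | zero => intro f; rfl
    | succ b ih =>
      intro f
      rw [Function.iterate_succ_apply, Function.iterate_succ_apply, Dy_shift, ih]
  have h2 : ∀ a (f : Pt → ℝ), Dx^[a] (fun x => f (x.1 - p.1, x.2 - p.2)) =
      fun x => (Dx^[a] f) (x.1 - p.1, x.2 - p.2) := by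
    intro a
    induction a with
    | zero => intro f; rfl
    | succ a ih =>
      intro f
      rw [Function.iterate_succ_apply, Function.iterate_succ_apply, Dx_shift, ih]
  rw [h1, h2]

theorem bump_diff {κ : ℕ} (hκ : 5 ≤ κ) (p : Pt) (a b : ℕ) (hab : a + b ≤ 4) (x : Pt) :
    |(Dx^[a] (Dy^[b] (bump κ p))) x| ≤ 16000000 / (κ : ℝ) ^ 2 * ((κ : ℝ)⁻¹) ^ (a + b) := by
  have hm : 1 ≤ κ / 5 := by omega
  have hκ0 : (0 : ℝ) < κ := by
    have : 0 < κ := by omega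
    exact_mod_cast this
  set m := κ / 5 with hmdef
  have hm0 : (0 : ℝ) < m := by exact_mod_cast hm
  have hmκ : (κ : ℝ) ≤ 10 * m := by
    have : κ ≤ 10 * m := by omega
    exact_mod_cast this
  have h1 := Av_diff_bound hm (sq0_le m) a b (by omega) (by omega) (x.1 - p.1, x.2 - p.2)
  have e : bump κ p = fun x => Av m (sq0 m) (x.1 - p.1, x.2 - p.2) := rfl
  rw [e, D_shift]
  refine h1.trans ?_
  have hinv : (m : ℝ)⁻¹ ≤ 10 * (κ : ℝ)⁻¹ := by
    rw [← div_eq_mul_inv, inv_eq_one_div, div_le_div_iff₀ hm0 hκ0]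
    linarith
  have h2 : (2 / (m : ℝ)) ^ (a + b) ≤ 160000 * ((κ : ℝ)⁻¹) ^ (a + b) := by
    have h3 : 2 / (m : ℝ) ≤ 20 * (κ : ℝ)⁻¹ := by
      rw [div_eq_mul_inv]
      linarith
    calc (2 / (m : ℝ)) ^ (a + b) ≤ (20 * (κ : ℝ)⁻¹) ^ (a + b) :=
          pow_le_pow_left₀ (by positivity) h3 _
      _ = 20 ^ (a + b) * ((κ : ℝ)⁻¹) ^ (a + b) := mul_pow _ _ _
      _ ≤ 20 ^ 4 * ((κ : ℝ)⁻¹) ^ (a + b) :=
          mul_le_mul_of_nonneg_right (pow_le_pow_right₀ (by norm_num) hab) (by positivity)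
      _ = _ := by norm_num
  have h4 : ((m : ℝ) ^ 2)⁻¹ ≤ 100 * ((κ : ℝ) ^ 2)⁻¹ := by
    rw [← inv_pow, ← inv_pow]
    calc ((m : ℝ)⁻¹) ^ 2 ≤ (10 * (κ : ℝ)⁻¹) ^ 2 := pow_le_pow_left₀ (by positivity) hinv _
      _ = _ := by ring
  calc (2 / (m : ℝ)) ^ (a + b) * ((m : ℝ) ^ 2)⁻¹
      ≤ (160000 * ((κ : ℝ)⁻¹) ^ (a + b)) * (100 * ((κ : ℝ) ^ 2)⁻¹) :=
        mul_le_mul h2 h4 (by positivity) (by positivity)
    _ = _ := by rw [div_eq_mul_inv]; ring

/-- the standard bump -/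
theorem bump_isBump {κ : ℕ} (hκ : 5 ≤ κ) (p : Pt) : IsBump p κ (16000000 / (κ : ℝ) ^ 2) (bump κ p) :=
  ⟨fun y hy => by
    by_contra h
    exact hy (bump_supp hκ h), fun a b hab y => bump_diff hκ p a b hab y⟩

theorem bump_le {κ : ℕ} (hκ : 5 ≤ κ) (p x : Pt) : bump κ p x ≤ 16000000 / (κ : ℝ) ^ 2 := by
  have := bump_diff hκ p 0 0 (by omega) x
  simp only [Function.iterate_zero, id_eq, add_zero, pow_zero, mul_one] at this
  exact (le_abs_self _).trans this

end Vale.Agent.P155.S743
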