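import Vale.Agent.P155.S743.Sweep
import Vale.Agent.P155.S743.Bump
import Vale.Agent.P155.T802.Strips

/-!
# P155, TIGHT, (S5): the evaluations in probability

`ME2` (scale-free Schwinger-Dyson equation, helper613) by homogeneity gives the second moment of
`h(Δ(χ u))` for the mean of the bumps above the strips of `c_i`, at any later time `j`.
-/

namespace Vale.Agent.P155.S743

open Finset J T905 HT T802 T862 G45

/-- scale-free Schwinger-Dyson equation with the explicit cut-off -/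
def ME2 : Prop := ∀ C0 p a a1 : ℝ, 0 < a → 4 * a ≤ a1 → a1 ≤ 1 → ∃ c > (0 : ℝ), ∃ C : ℝ, 0 ≤ C ∧
  ∃ R0 : ℕ, 1 ≤ R0 ∧ ∀ R : ℕ, R0 ≤ R → ∀ T : Temp, Skel.Fits T R → ∃ B : Conf → ℝ,
  (∀ ω, 0 ≤ B ω) ∧ Ex T.V B ≤ C * (R : ℝ) ^ (-p) ∧
  ∀ X : Expl, IsExpl T.V X → ∀ ω ∈ DD T.V, ∀ (O : Set Pt) (p0 : Pt) (n0 : ℕ) (φ u : Pt → ℝ),
  O ⊆ T.faceSet → Skel.CP O →
  (∀ v : Pt, (∀ f : Pt, v.1 - 1 ≤ f.1 → f.1 ≤ v.1 → v.2 - 1 ≤ f.2 → f.2 ≤ v.2 → f ∈ O) →
      v ∈ (X ω).1 ∧ v ∈ (X ω).2) →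
  p0 ∉ O → (R : ℝ) ^ a1 ≤ n0 → n0 ≤ R →
  IsBump p0 n0 (C0 / (n0 : ℝ) ^ 2) φ → IsGreen O φ u →
    |cEx T.V X (fun ω' => hf ω' (lap (fun y => cutf O ⌈(R : ℝ) ^ a⌉₊ y * u y))) ω| ≤
      C * (R : ℝ) ^ (-c) + cEx T.V X B ω ∧
    |cEx T.V X (fun ω' => (hf ω' (lap (fun y => cutf O ⌈(R : ℝ) ^ a⌉₊ y * u y))) ^ 2) ω -
      2 / Real.pi * pair φ u| ≤ C * (R : ℝ) ^ (-c) + cEx T.V X B ω

/-! ### linearity -/

theorem D_smul (c : ℝ) (f : Pt → ℝ) (a b : ℕ) (x : Pt) :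
    (Dx^[a] (Dy^[b] (fun y => c * f y))) x = c * (Dx^[a] (Dy^[b] f)) x := by
  have hx : ∀ f : Pt → ℝ, Dx (fun y => c * f y) = fun y => c * Dx f y := by
    intro f; funext y; unfold Dx; ring
  have hy : ∀ f : Pt → ℝ, Dy (fun y => c * f y) = fun y => c * Dy f y := by
    intro f; funext y; unfold Dy; ring
  have h1 : ∀ b (f : Pt → ℝ), Dy^[b] (fun y => c * f y) = fun y => c * (Dy^[b] f) y := by
    intro b
    induction b with
    | zero => intro f; rfl
    | succ b ih => intro f; rw [Function.iterate_succ_apply, hy, ih]; rfl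
  have h2 : ∀ a (f : Pt → ℝ), Dx^[a] (fun y => c * f y) = fun y => c * (Dx^[a] f) y := by
    intro a
    induction a with
    | zero => intro f; rfl
    | succ a ih => intro f; rw [Function.iterate_succ_apply, hx, ih]; rfl
  rw [h1, h2]

theorem D_sum {ι : Type*} (s : Finset ι) (f : ι → Pt → ℝ) (a b : ℕ) (x : Pt) :
    (Dx^[a] (Dy^[b] (fun y => ∑ i ∈ s, f i y))) x = ∑ i ∈ s, (Dx^[a] (Dy^[b] (f i))) x := by
  have hx : ∀ f : ι → Pt → ℝ, Dx (fun y => ∑ i ∈ s, f i y) = fun y => ∑ i ∈ s, Dx (f i) y := by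
    intro f; funext y; unfold Dx; rw [← Finset.sum_sub_distrib]
  have hy : ∀ f : ι → Pt → ℝ, Dy (fun y => ∑ i ∈ s, f i y) = fun y => ∑ i ∈ s, Dy (f i) y := by
    intro f; funext y; unfold Dy; rw [← Finset.sum_sub_distrib]
  have h1 : ∀ b (f : ι → Pt → ℝ), Dy^[b] (fun y => ∑ i ∈ s, f i y) =
      fun y => ∑ i ∈ s, (Dy^[b] (f i)) y := by
    intro b
    induction b with
    | zero => intro f; rfl
    | succ b ih => intro f; rw [Function.iterate_succ_apply, hy, ih]; rfl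
  have h2 : ∀ a (f : ι → Pt → ℝ), Dx^[a] (fun y => ∑ i ∈ s, f i y) =
      fun y => ∑ i ∈ s, (Dx^[a] (f i)) y := by
    intro a
    induction a with
    | zero => intro f; rfl
    | succ a ih => intro f; rw [Function.iterate_succ_apply, hx, ih]; rfl
  rw [h1, h2]

theorem hf_smul (ω : Conf) (c : ℝ) (f : Pt → ℝ) : hf ω (fun x => c * f x) = c * hf ω f := by
  unfold hf
  have := smul_finsum c (fun x : Pt => f x * (h ω x : ℝ))
  simp only [smul_eq_mul] at this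
  rw [this]
  exact finsum_congr fun x => by ring

theorem pair_smul (c : ℝ) (φ u : Pt → ℝ) :
    pair (fun x => c * φ x) (fun x => c * u x) = c ^ 2 * pair φ u := by
  unfold pair
  have := smul_finsum (c ^ 2) (fun x : Pt => φ x * u x)
  simp only [smul_eq_mul] at this
  rw [this]
  exact finsum_congr fun x => by ring

theorem lap_smul' (c : ℝ) (χ u : Pt → ℝ) :
    lap (fun y => χ y * (c * u y)) = fun x => c * lap (fun y => χ y * u y) x := by
  funext x
  unfold lap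
  ring

theorem green_smul {O : Set Pt} {φ u : Pt → ℝ} (c : ℝ) (h : IsGreen O φ u) :
    IsGreen O (fun x => c * φ x) (fun x => c * u x) where
  off := fun x hx => by rw [h.off x hx, mul_zero]
  eq := fun x hx => by
    have h1 := h.eq x hx
    have h2 : lap (fun x => c * u x) x = c * lap u x := by unfold lap; ring
    rw [h2, ← h1]; ring

/-! ### the test function -/

open Classical in
/-- the Green potential of `φ` in `O` -/
noncomputable def pot (O : Set Pt) (φ : Pt → ℝ) : Pt → ℝ :=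
  if h : O.Finite then Classical.choose (exists_green h φ) else 0

theorem pot_spec {O : Set Pt} (hO : O.Finite) (φ : Pt → ℝ) : IsGreen O φ (pot O φ) := by
  unfold pot
  rw [dif_pos hO]
  exact Classical.choose_spec (exists_green hO φ)

/-- mean of the bumps above the strips of `K` -/
noncomputable def phi (K : Set Pt) (xa : ℤ) (m κ : ℕ) (x : Pt) : ℝ :=
  (m : ℝ)⁻¹ * ∑ i : Fin m, bump κ (ctr K xa κ i) x

theorem phi_isBump {K : Set Pt} {xa : ℤ} {m κ : ℕ} (hκ : 5 ≤ κ) (hm : 1 ≤ m) {p0 : Pt} {n0 : ℕ}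
    (hκn : κ ≤ n0) (hsub : ∀ i : Fin m, box (ctr K xa κ i) κ ⊆ box p0 n0) :
    IsBump p0 n0 (16000000 * ((n0 : ℝ) / κ) ^ 6 / (n0 : ℝ) ^ 2) (phi K xa m κ) := by
  have hκ0 : (0 : ℝ) < κ := by
    have : 0 < κ := by omega
    exact_mod_cast this
  have hn0 : (0 : ℝ) < n0 := by
    have : 0 < n0 := by omega
    exact_mod_cast this
  have hm0 : (0 : ℝ) < m := by exact_mod_cast hm
  have hκn' : (κ : ℝ) ≤ n0 := by exact_mod_cast hκn
  constructor
  · intro y hy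
    unfold phi
    rw [Finset.sum_eq_zero, mul_zero]
    intro i _
    by_contra h
    exact hy (hsub i (bump_supp hκ h))
  · intro a b hab y
    have e : phi K xa m κ = fun x => (m : ℝ)⁻¹ * (fun x => ∑ i : Fin m, bump κ (ctr K xa κ i) x) x := rfl
    rw [e, D_smul, D_sum, abs_mul, abs_of_pos (inv_pos.2 hm0)]
    have h1 : |∑ i : Fin m, (Dx^[a] (Dy^[b] (bump κ (ctr K xa κ i)))) y| ≤
        m * (16000000 / (κ : ℝ) ^ 2 * ((κ : ℝ)⁻¹) ^ (a + b)) := by
      refine (Finset.abs_sum_le_sum_abs _ _).trans ?_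
      refine (Finset.sum_le_sum fun (i : Fin m) _ => bump_diff hκ (ctr K xa κ i) a b hab y).trans ?_
      rw [Finset.sum_const, Finset.card_univ, Fintype.card_fin, nsmul_eq_mul]
    calc (m : ℝ)⁻¹ * |∑ i : Fin m, (Dx^[a] (Dy^[b] (bump κ (ctr K xa κ i)))) y|
        ≤ (m : ℝ)⁻¹ * (m * (16000000 / (κ : ℝ) ^ 2 * ((κ : ℝ)⁻¹) ^ (a + b))) :=
          mul_le_mul_of_nonneg_left h1 (by positivity)
      _ = 16000000 / (κ : ℝ) ^ 2 * ((κ : ℝ)⁻¹) ^ (a + b) := by field_simp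
      _ = 16000000 / (n0 : ℝ) ^ 2 * ((n0 : ℝ)⁻¹) ^ (a + b) *
            (((n0 : ℝ) / κ) ^ 2 * ((n0 : ℝ) / κ) ^ (a + b)) := by
          rw [div_pow, div_pow, inv_pow, inv_pow]
          field_simp
      _ ≤ 16000000 / (n0 : ℝ) ^ 2 * ((n0 : ℝ)⁻¹) ^ (a + b) *
            (((n0 : ℝ) / κ) ^ 2 * ((n0 : ℝ) / κ) ^ 4) := by
          have h2 : (1 : ℝ) ≤ (n0 : ℝ) / κ := by rw [le_div_iff₀ hκ0]; linarith
          have h3 := pow_le_pow_right₀ h2 hab
          exact mul_le_mul_of_nonneg_left (mul_le_mul_of_nonneg_left h3 (by positivity))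
            (by positivity)
      _ = _ := by ring

/-- the function whose pairing with `h` is small -/
noncomputable def fx (T : Temp) (E K : Set Pt) (xa : ℤ) (m κ s : ℕ) : Pt → ℝ :=
  lap (fun y => cutf (OE T E) s y * pot (OE T E) (phi K xa m κ) y)

theorem finite_lap {u : Pt → ℝ} {O : Set Pt} (hO : O.Finite) (hu : ∀ x, x ∉ O → u x = 0) :
    (lap u).support.Finite := by
  have h0 : u.support.Finite := hO.subset fun x hx => by
    by_contra h
    exact hx (hu x h)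
  exact fs_lap h0

/-! ### the stages -/

variable {T : Temp} {Q : Cap} {t0 : ℤ}

theorem oe_finite (T : Temp) (E : Set Pt) : (OE T E).Finite :=
  (A1.faceSet_finite T).subset fun _ h => h.1

/-- **second moment at one atom**, by homogeneity -/
theorem atom_moment {V : Finset Pt} {X : Expl} {ω : Conf} {χ φ u : Pt → ℝ} {Λ ε b : ℝ}
    (hΛ : 0 < Λ)
    (h : |cEx V X (fun ω' => (hf ω' (lap (fun y => χ y * (Λ⁻¹ * u y)))) ^ 2) ω -
      2 / Real.pi * pair (fun x => Λ⁻¹ * φ x) (fun x => Λ⁻¹ * u x)| ≤ ε + b) :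
    cEx V X (fun ω' => (hf ω' (lap (fun y => χ y * u y))) ^ 2) ω ≤
      2 / Real.pi * pair φ u + Λ ^ 2 * ε + Λ ^ 2 * b := by
  rw [lap_smul', pair_smul] at h
  have e : cEx V X (fun ω' => (hf ω' (fun x => Λ⁻¹ * lap (fun y => χ y * u y) x)) ^ 2) ω =
      (Λ⁻¹) ^ 2 * cEx V X (fun ω' => (hf ω' (lap (fun y => χ y * u y))) ^ 2) ω := by
    rw [← E.cEx_const_mul]
    apply E.cEx_congr
    intro ω' _
    rw [hf_smul]
    ring
  rw [e] at h
  have h1 := (abs_le.1 h).2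
  have h2 : 0 < Λ ^ 2 := by positivity
  have h3 := mul_le_mul_of_nonneg_left h1 h2.le
  have h4 : Λ ^ 2 * ((Λ⁻¹) ^ 2 * cEx V X (fun ω' => (hf ω' (lap (fun y => χ y * u y))) ^ 2) ω -
      2 / Real.pi * ((Λ⁻¹) ^ 2 * pair φ u)) =
      cEx V X (fun ω' => (hf ω' (lap (fun y => χ y * u y))) ^ 2) ω - 2 / Real.pi * pair φ u := by
    field_simp
  rw [h4] at h3
  linarith

end Vale.Agent.P155.S743
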