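import Vale.Agent.P155.T905.Sign
import Vale.Agent.P155.J.CEx
import Vale.Agent.P155.E.Prob

/-!
# P155, TIGHT, (S5): one evaluation in expectation (tower property + signs)
-/

namespace Vale.Agent.P155.S743

open Finset J T905 HT

variable {V : Finset Pt}

/-- A random stage of a sweep: `X` the exploration, `Dom` = the stage exists, `f` = a random
finitely supported function; everything is determined by the explored part and by the
superposition. -/
structure Stage (V : Finset Pt) (X : Expl) (Dom : Conf → Prop) (f : Conf → Pt → ℝ) : Prop where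
  expl : IsExpl V X
  domA : ∀ ω ∈ DD V, ∀ ω' ∈ atom V X ω, (Dom ω' ↔ Dom ω)
  fA : ∀ ω ∈ DD V, Dom ω → ∀ ω' ∈ atom V X ω, f ω' = f ω
  domU : UInv V Dom
  fU : ∀ ω ∈ DD V, Dom ω → ∀ ω' ∈ DD V, UEq ω ω' → f ω' = f ω
  fin : ∀ ω ∈ DD V, Dom ω → (f ω).support.Finite

open Classical in
/-- `f` where the stage exists, `0` elsewhere -/
noncomputable def cutD (Dom : Conf → Prop) (f : Conf → Pt → ℝ) (ω : Conf) : Pt → ℝ :=
  if Dom ω then f ω else 0

theorem cutD_uinv {X : Expl} {Dom : Conf → Prop} {f : Conf → Pt → ℝ} (S : Stage V X Dom f) :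
    UInv V (cutD Dom f) := by
  intro ω hω ω' hω' h
  have hd : Dom ω' = Dom ω := S.domU ω hω ω' hω' h
  unfold cutD
  by_cases h1 : Dom ω
  · rw [if_pos h1, if_pos (by rw [hd]; exact h1), S.fU ω hω h1 ω' hω' h]
  · rw [if_neg h1, if_neg (by rw [hd]; exact h1)]

theorem cutD_fin {X : Expl} {Dom : Conf → Prop} {f : Conf → Pt → ℝ} (S : Stage V X Dom f) :
    ∀ ω ∈ DD V, (cutD Dom f ω).support.Finite := by
  intro ω hω
  unfold cutD
  by_cases h1 : Dom ω
  · rw [if_pos h1]; exact S.fin ω hω h1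
  · rw [if_neg h1]; simp

theorem hf_zero (ω : Conf) : hf ω 0 = 0 := by
  unfold hf
  simp

open Classical in
/-- **tower property**: the second moment of the pairing with an explored random function -/
theorem second_moment {X : Expl} {Dom : Conf → Prop} {f : Conf → Pt → ℝ} (S : Stage V X Dom f)
    {e B : Conf → ℝ} {δ : ℝ} (hδ : 0 ≤ δ) (hB : ∀ ω, 0 ≤ B ω)
    (h : ∀ ω ∈ DD V, Dom ω → cEx V X (fun ω' => hf ω' (f ω) ^ 2) ω ≤ e ω + δ + cEx V X B ω) :
    Ex V (fun ω => hf ω (cutD Dom f ω) ^ 2) ≤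
      Ex V (fun ω => if Dom ω then e ω else 0) + δ + Ex V B := by
  rw [← Ex_cEx S.expl (fun ω => hf ω (cutD Dom f ω) ^ 2), ← Ex_cEx S.expl B]
  have key : ∀ ω ∈ DD V, cEx V X (fun ω => hf ω (cutD Dom f ω) ^ 2) ω ≤
      (if Dom ω then e ω else 0) + δ + cEx V X B ω := by
    intro ω hω
    have hB0 : 0 ≤ cEx V X B ω := cEx_nonneg (fun _ _ => hB _)
    by_cases h1 : Dom ω
    · have e1 : cEx V X (fun ω' => hf ω' (cutD Dom f ω') ^ 2) ω =
          cEx V X (fun ω' => hf ω' (f ω) ^ 2) ω := by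
        rw [cEx_eq_avg, cEx_eq_avg]
        refine avg_congr (fun a ha => ?_)
        unfold cutD
        rw [if_pos ((S.domA ω hω a ha).2 h1), S.fA ω hω h1 a ha]
      rw [e1, if_pos h1]
      exact h ω hω h1
    · have e1 : cEx V X (fun ω' => hf ω' (cutD Dom f ω') ^ 2) ω = cEx V X (fun _ => (0 : ℝ)) ω := by
        rw [cEx_eq_avg, cEx_eq_avg]
        refine avg_congr (fun a ha => ?_)
        unfold cutD
        rw [if_neg (fun h2 => h1 ((S.domA ω hω a ha).1 h2)), hf_zero]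
        norm_num
      rw [e1, if_neg h1, cEx_eq_avg, avg_zero]
      linarith
  refine (Ex_mono key).trans ?_
  rcases (DD V).eq_empty_or_nonempty with hne | hne
  · rw [Ex_eq_avg, Ex_eq_avg, Ex_eq_avg, hne]
    unfold avg
    simpa using hδ
  · rw [Ex_eq_avg, Ex_eq_avg, Ex_eq_avg, avg_add, avg_add, avg_const hne]

open Classical in
/-- **one evaluation, one loop**: `Q` selects configurations, `l` a loop -/
theorem one_eval {X : Expl} {Dom : Conf → Prop} {f : Conf → Pt → ℝ} (S : Stage V X Dom f)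
    {e B : Conf → ℝ} {δ : ℝ} (hδ : 0 ≤ δ) (hB : ∀ ω, 0 ≤ B ω)
    (h : ∀ ω ∈ DD V, Dom ω → cEx V X (fun ω' => hf ω' (f ω) ^ 2) ω ≤ e ω + δ + cEx V X B ω)
    {Q : Conf → Prop} (hQ : UInv V Q) (hQD : ∀ ω ∈ DD V, Q ω → Dom ω) (l : Conf → Set Pt)
    (hl : ∀ ω ∈ DD V, Q ω → l ω ∈ Loops ω) :
    Ex V (fun ω => if Q ω then mass ω (f ω) (l ω) ^ 2 else 0) ≤
      Ex V (fun ω => if Dom ω then e ω else 0) + δ + Ex V B := by
  refine le_trans ?_ (second_moment S hδ hB h)
  have h1 := one_loop (V := V) (fun ω => if Q ω then 1 else 0) (cutD Dom f) ?_ ?_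
    (cutD_uinv S) (cutD_fin S) l ?_
  · refine le_trans (Ex_mono ?_) (h1.trans (Ex_mono ?_))
    · intro ω hω
      by_cases hq : Q ω
      · rw [if_pos hq, if_pos hq, one_mul]
        unfold cutD
        rw [if_pos (hQD ω hω hq)]
      · rw [if_neg hq, if_neg hq, zero_mul]
    · intro ω hω
      by_cases hq : Q ω
      · rw [if_pos hq, one_mul]
      · rw [if_neg hq, zero_mul]
        positivity
  · intro ω hω ω' hω' hu
    have : Q ω' = Q ω := hQ ω hω ω' hω' hu
    simp only [this]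
  · intro ω
    split_ifs <;> norm_num
  · intro ω hω hq
    apply hl ω hω
    by_contra hc
    exact hq (if_neg hc)

open Classical in
/-- **one evaluation, one loop**, in probability -/
theorem one_eval_pr {X : Expl} {Dom : Conf → Prop} {f : Conf → Pt → ℝ} (S : Stage V X Dom f)
    {e B : Conf → ℝ} {δ : ℝ} (hδ : 0 ≤ δ) (hB : ∀ ω, 0 ≤ B ω)
    (h : ∀ ω ∈ DD V, Dom ω → cEx V X (fun ω' => hf ω' (f ω) ^ 2) ω ≤ e ω + δ + cEx V X B ω)
    {Q : Conf → Prop} (hQ : UInv V Q) (hQD : ∀ ω ∈ DD V, Q ω → Dom ω) (l : Conf → Set Pt)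
    (hl : ∀ ω ∈ DD V, Q ω → l ω ∈ Loops ω) {t : ℝ} (ht : 0 < t) :
    Pr V (fun ω => Q ω ∧ t < |mass ω (f ω) (l ω)|) ≤
      (t ^ 2)⁻¹ * (Ex V (fun ω => if Dom ω then e ω else 0) + δ + Ex V B) := by
  have h1 := one_eval S hδ hB h hQ hQD l hl
  have h2 := E.markov V (fun ω => if Q ω then mass ω (f ω) (l ω) ^ 2 else 0)
    (fun ω _ => by split_ifs <;> positivity) (t := t ^ 2) (by positivity)
  refine le_trans (E.Pr_mono ?_) (h2.trans (mul_le_mul_of_nonneg_left h1 (by positivity)))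
  rintro ω - ⟨hq, ht'⟩
  rw [if_pos hq, ← sq_abs (mass ω (f ω) (l ω))]
  exact pow_lt_pow_left₀ ht' ht.le two_ne_zero

end Vale.Agent.P155.S743
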