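import Vale.Agent.P155.S743.Prob
import Vale.Agent.P155.T802.DetTwo

/-!
# P155, TIGHT, (S5): the statement `EV` (one evaluation with explicit errors)
-/

namespace Vale.Agent.P155.S743

open Finset J T905 HT T802 T862 G45

/-- number of strips -/
def mm (mL mR : ℤ) (κ : ℕ) : ℕ := ((mR - mL) / (16 * κ)).toNat

theorem mm_spec {mL mR : ℤ} {κ n : ℕ} (hκ : 1 ≤ κ) (h16 : 16 * κ ≤ n) (hm : mL + n ≤ mR) :
    1 ≤ mm mL mR κ ∧ mL + 16 * κ * (mm mL mR κ) ≤ mR ∧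
      ((mm mL mR κ : ℝ))⁻¹ ≤ 32 * ((κ : ℝ) / n) := by
  have hκ0 : (0 : ℤ) < 16 * κ := by positivity
  have h1 : (1 : ℤ) ≤ (mR - mL) / (16 * κ) := by
    rw [Int.le_ediv_iff_mul_le hκ0]
    have : (16 * κ : ℤ) ≤ n := by exact_mod_cast h16
    omega
  have h2 : ((mm mL mR κ : ℕ) : ℤ) = (mR - mL) / (16 * κ) := by
    unfold mm
    exact Int.toNat_of_nonneg (by omega)
  have h3 := Int.mul_ediv_self_le (x := mR - mL) (k := 16 * κ) (by omega)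
  have h4 := Int.lt_mul_ediv_self_add (x := mR - mL) hκ0
  rw [← h2] at h1 h3 h4
  have h5 : 1 ≤ mm mL mR κ := by exact_mod_cast h1
  refine ⟨h5, by omega, ?_⟩
  have hm0 : (0 : ℝ) < mm mL mR κ := by exact_mod_cast h5
  have hκr : (0 : ℝ) < κ := by exact_mod_cast hκ
  have hn0 : (0 : ℝ) < n := by
    have : 0 < n := by omega
    exact_mod_cast this
  rw [← mul_div_assoc, inv_eq_one_div, div_le_div_iff₀ hm0 hn0]
  have h6 : (n : ℤ) ≤ 32 * κ * (mm mL mR κ) := by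
    have e : (16 * κ : ℤ) * 1 ≤ 16 * κ * (mm mL mR κ) :=
      mul_le_mul_of_nonneg_left h1 hκ0.le
    have e2 : (32 * κ * (mm mL mR κ) : ℤ) = 16 * κ * (mm mL mR κ) + 16 * κ * (mm mL mR κ) := by ring
    omega
  have h7 : (n : ℝ) ≤ 32 * κ * (mm mL mR κ) := by exact_mod_cast h6
  linarith

theorem mk_setup {T : Temp} {Q : Cap} {t0 mL mR : ℤ} {A n κ ρ0 D : ℕ}
    (G : S7.Geo T Q t0 mL mR A n) (hκ : 1 ≤ κ) (h80 : 80 * κ ≤ n) (hD : D ≤ ρ0)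
    (hρ : 8 * ρ0 + 16 ≤ n) :
    Setup T Q t0 (Q.y0 - n) mL (mm mL mR κ) κ (n / 4) ρ0 D := by
  obtain ⟨h1, h2, -⟩ := mm_spec (κ := κ) hκ (by omega) G.m
  have g1 := G.l
  have g2 := G.r
  have g3 := G.top
  have hx := Q.hS0
  refine ⟨G.below, G.ht, ?_, hκ, by omega, hD, by omega, by omega, by omega, by omega⟩
  intro f f1 f2 f3 f4
  exact G.far f (by omega) (by omega) f3 (by omega)

open Classical in
/-- **one evaluation in probability**: the mean over the bumps above `c_j` of the indicator of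
`surr l` is the side of `c_J` in `l`, for every loop `l` which reaches the left column. -/
def EV : Prop :=
  ∀ a0 : ℝ, 0 < a0 → ∀ A : ℕ, ∃ b c C : ℝ, 0 < b ∧ 0 < c ∧ 0 < C ∧
  ∀ (T : Temp) (R n : ℕ) (Q : Cap) (t0 mL mR : ℤ), 1 ≤ R → Skel.Fits T R → (R : ℝ) ^ a0 ≤ n →
  S7.Geo T Q t0 mL mR A n → ∀ (κ j J : ℕ), 1 ≤ κ → 80 * κ ≤ n → 1 ≤ j → j ≤ J →
  ∀ l : Conf → Set Pt, (∀ ω ∈ DD T.V, Q.Has T.V t0 ω J → l ω ∈ Loops ω ∧
    ∃ q ∈ l ω, q.1 = Q.x0 + 1) →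
  Pr T.V (fun ω => Q.Has T.V t0 ω J ∧
    1 / 16 + C * ((κ : ℝ) / n) ^ b + C * ((n : ℝ) / κ) ^ C * (R : ℝ) ^ (-c) +
      C * (((n : ℝ) * κ)⁻¹ * ∑ i : Fin (mm mL mR κ), ((badF T Q t0 ω j J mL κ i).card : ℝ)) <
    |mass ω (T802.phi (Q.cj T.V t0 ω j) mL (mm mL mR κ) κ) (l ω) -
      (if upS Q ω (Q.cj T.V t0 ω J) (l ω) then 1 else 0)|) ≤
    C * ((κ : ℝ) / n) ^ b + C * ((n : ℝ) / κ) ^ C * (R : ℝ) ^ (-c)

end Vale.Agent.P155.S743
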