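import Mathlib

/-!
# P155, TIGHT, (S5): choice of the scales
-/

namespace Vale.Agent.P155.S743

open Filter Topology

theorem scale_le {K R n : ℕ} (hK : 1 ≤ K) (hR : 1 ≤ R) {a0 : ℝ} (hn : (R : ℝ) ^ a0 ≤ n) :
    ((K * R : ℕ) : ℝ) ^ (min a0 1) ≤ ((K * n : ℕ) : ℝ) := by
  have hK1r : (1 : ℝ) ≤ K := by exact_mod_cast hK
  have hR1r : (1 : ℝ) ≤ R := by exact_mod_cast hR
  push_cast
  rw [Real.mul_rpow (by positivity) (by positivity)]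
  have h1 : (K : ℝ) ^ (min a0 1) ≤ K := by
    calc (K : ℝ) ^ (min a0 1) ≤ (K : ℝ) ^ (1 : ℝ) :=
          Real.rpow_le_rpow_of_exponent_le hK1r (min_le_right _ _)
      _ = K := Real.rpow_one _
  have h2 : (R : ℝ) ^ (min a0 1) ≤ n :=
    (Real.rpow_le_rpow_of_exponent_le hR1r (min_le_left _ _)).trans hn
  exact mul_le_mul h1 h2 (by positivity) (by positivity)

/-- **the scales** `s = ⌈(K R)^a⌉`, `D = 2 s + 1`, `ρ0 = ⌈(K n)^{1 - γ²/1024}⌉`. -/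
theorem scales {a0 γ CT : ℝ} (ha0 : 0 < a0) (hγ : 0 < γ) (hγ1 : γ ≤ 1) (hCT : 0 < CT) {K : ℕ}
    (hK : 1 ≤ K) : ∃ a : ℝ, 0 < a ∧ 8 * a ≤ min a0 1 ∧ ∃ R1 : ℕ, 1 ≤ R1 ∧ ∀ R : ℕ, R1 ≤ R →
    ∀ n : ℕ, (R : ℝ) ^ a0 ≤ n →
    8 ≤ ⌈((K * R : ℕ) : ℝ) ^ a⌉₊ ∧ (⌈((K * R : ℕ) : ℝ) ^ a⌉₊ : ℝ) ≤ ((K * n : ℕ) : ℝ) ^ (γ / 512) ∧
    ((2 * ⌈((K * R : ℕ) : ℝ) ^ a⌉₊ + 1 : ℕ) : ℝ) + 1 ≤ ((K * n : ℕ) : ℝ) ^ (γ / 512) ∧
    2 * ⌈((K * R : ℕ) : ℝ) ^ a⌉₊ + 1 ≤ ⌈((K * n : ℕ) : ℝ) ^ (1 - γ ^ 2 / 1024)⌉₊ ∧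
    8 * ⌈((K * n : ℕ) : ℝ) ^ (1 - γ ^ 2 / 1024)⌉₊ + 16 ≤ n ∧
    2 * (CT * (⌈((K * n : ℕ) : ℝ) ^ (1 - γ ^ 2 / 1024)⌉₊ : ℝ)) + 2 ≤ n ∧
    (⌈((K * R : ℕ) : ℝ) ^ a⌉₊ : ℝ) ≤ 2 * K * (R : ℝ) ^ a := by
  set a1 := min a0 1 with ha1
  have ha10 : 0 < a1 := lt_min ha0 one_pos
  have ha11 : a1 ≤ 1 := min_le_right _ _
  obtain ⟨a, ha⟩ : ∃ a : ℝ, a = a1 * γ / 2048 := ⟨_, rfl⟩
  have ha' : 0 < a := by rw [ha]; positivity
  have ha8 : 8 * a ≤ a1 := by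
    rw [ha]
    have : a1 * γ ≤ a1 * 1 := mul_le_mul_of_nonneg_left hγ1 ha10.le
    linarith
  have hK1r : (1 : ℝ) ≤ K := by exact_mod_cast hK
  obtain ⟨ε, hε⟩ : ∃ ε : ℝ, ε = γ ^ 2 / 1024 := ⟨_, rfl⟩
  have hε0 : 0 < ε := by rw [hε]; positivity
  have hε1 : ε ≤ 1 / 2 := by
    rw [hε]
    have : γ ^ 2 ≤ 1 := pow_le_one₀ hγ.le hγ1
    linarith
  -- eventually statements
  have ev1 : ∀ᶠ R : ℕ in atTop, (8 : ℝ) ≤ (R : ℝ) ^ a :=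
    ((tendsto_rpow_atTop ha').comp tendsto_natCast_atTop_atTop).eventually_ge_atTop _
  have ev2 : ∀ᶠ R : ℕ in atTop, (100 * K * (1 + CT) * K) ^ (1 / ε) ≤ (R : ℝ) ^ a0 :=
    ((tendsto_rpow_atTop ha0).comp tendsto_natCast_atTop_atTop).eventually_ge_atTop _
  have ev3 : ∀ᶠ R : ℕ in atTop, (100 : ℝ) ≤ (R : ℝ) ^ a0 :=
    ((tendsto_rpow_atTop ha0).comp tendsto_natCast_atTop_atTop).eventually_ge_atTop _
  obtain ⟨R1, hR1⟩ := eventually_atTop.1 (ev1.and (ev2.and ev3))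
  refine ⟨a, ha', ha8, max R1 1, le_max_right _ _, ?_⟩
  intro R hR n hn
  obtain ⟨g1, g2, g3⟩ := hR1 R ((le_max_left _ _).trans hR)
  have hR1' : 1 ≤ R := (le_max_right _ _).trans hR
  have hRr : (1 : ℝ) ≤ R := by exact_mod_cast hR1'
  have hR0 : (0 : ℝ) < R := by linarith
  have hKR : (1 : ℝ) ≤ ((K * R : ℕ) : ℝ) := by
    push_cast
    nlinarith
  have hscale := scale_le hK hR1' hn
  rw [← ha1] at hscale
  -- `8 ≤ (K R)^a`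
  have k1 : (8 : ℝ) ≤ ((K * R : ℕ) : ℝ) ^ a := by
    refine g1.trans (Real.rpow_le_rpow hR0.le ?_ ha'.le)
    push_cast
    nlinarith
  have k2 := Nat.ceil_lt_add_one (show 0 ≤ ((K * R : ℕ) : ℝ) ^ a by positivity)
  have k3 : ((K * R : ℕ) : ℝ) ^ a ≤ (⌈((K * R : ℕ) : ℝ) ^ a⌉₊ : ℝ) := Nat.le_ceil _
  set s := ⌈((K * R : ℕ) : ℝ) ^ a⌉₊ with hs
  set z := ((K * R : ℕ) : ℝ) ^ a with hz
  -- `(K R)^{4a} ≤ (K n)^{γ/512}`
  have k4 : z ^ (4 : ℕ) ≤ ((K * n : ℕ) : ℝ) ^ (γ / 512) := by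
    have e1 : z ^ (4 : ℕ) = (((K * R : ℕ) : ℝ) ^ a1) ^ (γ / 512) := by
      rw [hz, ← Real.rpow_natCast, ← Real.rpow_mul (by positivity),
        ← Real.rpow_mul (by positivity)]
      congr 1
      rw [ha]
      push_cast
      ring
    rw [e1]
    exact Real.rpow_le_rpow (by positivity) hscale (by positivity)
  have k5 : 2 * (z + 1) + 1 + 1 ≤ z ^ (4 : ℕ) := by
    have h1 : 8 * z ≤ z ^ 4 := by
      have h2 : (8 : ℝ) ^ 3 ≤ z ^ 3 := pow_le_pow_left₀ (by norm_num) k1 3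
      calc 8 * z ≤ z ^ 3 * z := mul_le_mul_of_nonneg_right (by linarith) (by linarith)
        _ = z ^ 4 := by ring
    linarith
  have hDe : ((2 * s + 1 : ℕ) : ℝ) = 2 * (s : ℝ) + 1 := by push_cast; ring
  have k6 : ((2 * s + 1 : ℕ) : ℝ) + 1 ≤ ((K * n : ℕ) : ℝ) ^ (γ / 512) := by
    rw [hDe]
    linarith
  have hn1 : (100 : ℝ) ≤ n := g3.trans hn
  have hn0 : (0 : ℝ) < n := by linarith
  have hKn1 : (1 : ℝ) ≤ ((K * n : ℕ) : ℝ) := by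
    push_cast
    nlinarith
  -- `ρ0`
  have hr : ((K * n : ℕ) : ℝ) ^ (1 - ε) * (100 * (1 + CT)) ≤ n := by
    have h1 : ((K * n : ℕ) : ℝ) ^ (1 - ε) ≤ K * (n : ℝ) ^ (1 - ε) := by
      push_cast
      rw [Real.mul_rpow (by positivity) (by positivity)]
      refine mul_le_mul_of_nonneg_right ?_ (by positivity)
      calc (K : ℝ) ^ (1 - ε) ≤ (K : ℝ) ^ (1 : ℝ) :=
            Real.rpow_le_rpow_of_exponent_le hK1r (by linarith)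
        _ = K := Real.rpow_one _
    have h2 : 100 * K * (1 + CT) ≤ (n : ℝ) ^ ε := by
      have h3 : (100 * K * (1 + CT) * K) ^ (1 / ε) ≤ (n : ℝ) := g2.trans hn
      have h4 := Real.rpow_le_rpow (by positivity) h3 hε0.le
      rw [← Real.rpow_mul (by positivity), one_div, inv_mul_cancel₀ hε0.ne', Real.rpow_one] at h4
      have h5 : 100 * K * (1 + CT) ≤ 100 * K * (1 + CT) * K :=
        le_mul_of_one_le_right (by positivity) hK1r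
      linarith
    calc ((K * n : ℕ) : ℝ) ^ (1 - ε) * (100 * (1 + CT))
        ≤ (K * (n : ℝ) ^ (1 - ε)) * (100 * (1 + CT)) :=
          mul_le_mul_of_nonneg_right h1 (by positivity)
      _ = (100 * K * (1 + CT)) * (n : ℝ) ^ (1 - ε) := by ring
      _ ≤ (n : ℝ) ^ ε * (n : ℝ) ^ (1 - ε) := mul_le_mul_of_nonneg_right h2 (by positivity)
      _ = n := by
          rw [← Real.rpow_add hn0]
          have : ε + (1 - ε) = 1 := by ring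
          rw [this, Real.rpow_one]
  rw [← hε]
  have m1 := Nat.ceil_lt_add_one (show 0 ≤ ((K * n : ℕ) : ℝ) ^ (1 - ε) by positivity)
  have m2 : ((K * n : ℕ) : ℝ) ^ (1 - ε) ≤ (⌈((K * n : ℕ) : ℝ) ^ (1 - ε)⌉₊ : ℝ) := Nat.le_ceil _
  set r := ⌈((K * n : ℕ) : ℝ) ^ (1 - ε)⌉₊ with hr'
  have m3 : (1 : ℝ) ≤ ((K * n : ℕ) : ℝ) ^ (1 - ε) := Real.one_le_rpow hKn1 (by linarith)
  set q := ((K * n : ℕ) : ℝ) ^ (1 - ε) with hq
  have q0 : 0 ≤ q := by linarith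
  have hqC : 0 ≤ q * CT := mul_nonneg q0 hCT.le
  have hr2 : 100 * q + 100 * (q * CT) ≤ n := by
    have e : q * (100 * (1 + CT)) = 100 * q + 100 * (q * CT) := by ring
    rw [← e]
    exact hr
  have m4 : 100 * q ≤ n := by linarith
  have m5 : 100 * (q * CT) ≤ n := by linarith
  refine ⟨?_, ?_, k6, ?_, ?_, ?_, ?_⟩
  · have : (8 : ℝ) ≤ s := k1.trans k3
    exact_mod_cast this
  · rw [hDe] at k6
    have : (0 : ℝ) ≤ s := by positivity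
    linarith
  · have h1 : ((K * n : ℕ) : ℝ) ^ (γ / 512) ≤ q := by
      rw [hq]
      apply Real.rpow_le_rpow_of_exponent_le hKn1
      linarith
    have h2 : ((2 * s + 1 : ℕ) : ℝ) ≤ r := by linarith
    exact_mod_cast h2
  · have h1 : (8 * r + 16 : ℝ) ≤ n := by linarith
    exact_mod_cast h1
  · have h1 : CT * (r : ℝ) ≤ CT * (2 * q) := mul_le_mul_of_nonneg_left (by linarith) hCT.le
    have h2 : CT * (2 * q) = 2 * (q * CT) := by ring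
    rw [h2] at h1
    linarith
  · have h1 : z ≤ K * (R : ℝ) ^ a := by
      rw [hz]
      push_cast
      rw [Real.mul_rpow (by positivity) (by positivity)]
      refine mul_le_mul_of_nonneg_right ?_ (by positivity)
      calc (K : ℝ) ^ a ≤ (K : ℝ) ^ (1 : ℝ) :=
            Real.rpow_le_rpow_of_exponent_le hK1r (by linarith)
        _ = K := Real.rpow_one _
    have e : 2 * (K : ℝ) * (R : ℝ) ^ a = 2 * (K * (R : ℝ) ^ a) := by ring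
    rw [e]
    linarith

end Vale.Agent.P155.S743
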