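import Vale.Agent.P155.S743.EV
import Vale.Agent.P155.S743.Par
import Vale.Agent.P155.S862.Energy
import Vale.Agent.P155.S862.TwoErr
import Vale.Agent.P155.G45.Whitney

/-!
# P155, TIGHT, (S5): one evaluation of the bumps above `c_j` at time `J`, with explicit errors
-/

namespace Vale.Agent.P155.S743

open Finset J T905 HT T802 T862 G45 S862

theorem exists_ge (l : List ℝ) : ∃ C : ℝ, 1 ≤ C ∧ ∀ x ∈ l, x ≤ C := by
  induction l with
  | nil => exact ⟨1, le_rfl, by simp⟩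
  | cons a l ih =>
    obtain ⟨C, h1, h2⟩ := ih
    refine ⟨max a C, h1.trans (le_max_right _ _), ?_⟩
    intro x hx
    rcases List.mem_cons.1 hx with rfl | hx
    · exact le_max_left _ _
    · exact (h2 x hx).trans (le_max_right _ _)

/-- distance to the complement of the polygon near the cap -/
theorem dF_cap {T : Temp} {Q : Cap} {t0 mL mR : ℤ} {A n : ℕ} (G : S7.Geo T Q t0 mL mR A n)
    {p x : Pt} (hp1 : Q.x0 + n ≤ p.1) (hp2 : p.1 + n ≤ Q.x1) (hp3 : Q.y0 ≤ p.2) (hp4 : p.2 ≤ Q.yc)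
    (hx : dn p x ≤ n / 4) : n ≤ 2 * dF T.faceSet x + 1 := by
  have hq : ∃ q, q ∉ T.faceSet := exists_notMem (A1.faceSet_finite T)
  obtain ⟨y, hy, hd⟩ := exists_dF hq x
  by_contra hcon
  push Not at hcon
  apply hy
  have h1 := T802.dn_le' hx
  have h2 := T802.dn_le' (le_refl (dn x y))
  have g3 := G.top
  rw [hd] at h2
  refine G.far y ?_ ?_ ?_ ?_ <;> omega

open Classical in
/-- the bad event of `two_err`, for the cap `Q` -/
def BadE (T : Temp) (Q : Cap) (N κ s ρ0 D : ℕ) (Cd γ CT : ℝ) (ω : Conf) : Prop :=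
  ∃ (O : Set Pt) (q : Pt) (φ v χ : Pt → ℝ), O.Finite ∧ CPr O ∧ q ∉ O ∧
    IsCut O s (32 ^ 4) χ ∧ (∀ y, |φ y| ≤ E4.dens Cd q κ y) ∧ IsGreen O φ v ∧
    CT * (((N : ℝ) / κ) ^ γ * (N : ℝ) ^ (-(γ ^ 2 / 128))) <
      ∑ x ∈ (box (Q.x0, Q.y0) N).filter (fun x => CT * ρ0 ≤ dF T.faceSet x ∧
        SW.TwoVisit (fun _ : Fin 1 => box x (D + 1)) (SW.res T.V (box x ρ0) ω)), |fL O φ χ v x|

/-- the bump is dominated by the density -/
theorem bump_dens {κ : ℕ} (hκ : 5 ≤ κ) {I : Set Pt} {p q y : Pt}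
    (hd : ∀ y ∈ box p κ, dn q y ≤ 6 * κ) :
    |gpart I (bump κ p) y| ≤ E4.dens 686000000 q κ y := by
  classical
  have hκ0 : (0 : ℝ) < κ := by
    have : 0 < κ := by omega
    exact_mod_cast this
  unfold gpart
  by_cases hI : y ∈ I
  · rw [if_pos hI]
    by_cases hb : bump κ p y = 0
    · rw [hb, abs_zero]
      exact E4.dens_nonneg (by norm_num) _ _ _
    · have h1 := hd y (bump_supp hκ hb)
      rw [abs_of_nonneg (bump_nonneg _ _ _)]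
      refine (bump_le hκ p y).trans ?_
      unfold E4.dens
      have h1' : (dn q y : ℝ) ≤ 6 * κ := by exact_mod_cast h1
      rw [div_le_div_iff₀ (by positivity) (by positivity)]
      have h2 : ((κ : ℝ) + dn q y) ^ 3 ≤ (7 * (κ : ℝ)) ^ 3 :=
        pow_le_pow_left₀ (by positivity) (by linarith) 3
      calc 16000000 * ((κ : ℝ) + dn q y) ^ 3 ≤ 16000000 * (7 * (κ : ℝ)) ^ 3 :=
            mul_le_mul_of_nonneg_left h2 (by norm_num)
        _ = 8 * 686000000 * κ * (κ : ℝ) ^ 2 := by ring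
  · rw [if_neg hI, abs_zero]
    exact E4.dens_nonneg (by norm_num) _ _ _

/-- numeric: the first error -/
theorem num1 {κ n : ℕ} {β K : ℝ} (hβ : 0 < β) (hK : 0 ≤ K) (hκ : 1 ≤ κ) (hn : 1 ≤ n) :
    K * (((6 * κ : ℕ) + 1 : ℝ) / (((n / 4 : ℕ) : ℝ) + 1)) ^ β ≤ K * 28 ^ β * ((κ : ℝ) / n) ^ β := by
  have hn0 : (0 : ℝ) < n := by exact_mod_cast hn
  rw [mul_assoc K, ← Real.mul_rpow (by norm_num) (by positivity)]
  refine mul_le_mul_of_nonneg_left (Real.rpow_le_rpow (by positivity) ?_ hβ.le) hK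
  rw [← mul_div_assoc, div_le_div_iff₀ (by positivity) hn0]
  have f1 : (n : ℝ) ≤ 4 * (((n / 4 : ℕ) : ℝ) + 1) := by
    have : n ≤ 4 * (n / 4 + 1) := by omega
    exact_mod_cast this
  have f2 : ((6 * κ : ℕ) : ℝ) + 1 ≤ 7 * κ := by
    have : 6 * κ + 1 ≤ 7 * κ := by omega
    exact_mod_cast this
  calc (((6 * κ : ℕ) : ℝ) + 1) * n ≤ (7 * κ) * (4 * (((n / 4 : ℕ) : ℝ) + 1)) :=
        mul_le_mul f2 f1 hn0.le (by positivity)
    _ = _ := by ring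

/-- numeric: the third error -/
theorem num3 {κ n m : ℕ} {K σ : ℝ} (hK : 0 ≤ K) (hσ : 0 ≤ σ) (hκ : 1 ≤ κ) (hn : 1 ≤ n)
    (hm : (m : ℝ)⁻¹ ≤ 32 * ((κ : ℝ) / n)) :
    K * (16000000 / (κ : ℝ) ^ 2 * ((m : ℝ)⁻¹ * σ)) ≤
      K * (16000000 * 32) * (((n : ℝ) * κ)⁻¹ * σ) := by
  have hn0 : (0 : ℝ) < n := by exact_mod_cast hn
  have hκ0 : (0 : ℝ) < κ := by exact_mod_cast hκ
  rw [mul_assoc K]
  refine mul_le_mul_of_nonneg_left ?_ hK
  calc 16000000 / (κ : ℝ) ^ 2 * ((m : ℝ)⁻¹ * σ)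
      ≤ 16000000 / (κ : ℝ) ^ 2 * ((32 * ((κ : ℝ) / n)) * σ) :=
        mul_le_mul_of_nonneg_left (mul_le_mul_of_nonneg_right hm hσ) (by positivity)
    _ = _ := by field_simp

theorem sum_ite_le {S B : Finset Pt} {f : Pt → ℝ} (hf : ∀ x, 0 ≤ f x) {P P' : Pt → Prop}
    {_ : DecidablePred P} {_ : DecidablePred P'} (h : ∀ x ∈ S, P x → x ∈ B ∧ P' x) :
    ∑ x ∈ S, f x * (if P x then 1 else 0) ≤ ∑ x ∈ B.filter P', f x := by
  have e : ∑ x ∈ S, f x * (if P x then 1 else 0) = ∑ x ∈ S.filter P, f x := by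
    rw [Finset.sum_filter]
    exact Finset.sum_congr rfl fun x _ => by split_ifs <;> simp
  rw [e]
  refine Finset.sum_le_sum_of_subset_of_nonneg ?_ (fun x _ _ => hf x)
  intro x hx
  obtain ⟨h1, h2⟩ := Finset.mem_filter.1 hx
  exact Finset.mem_filter.2 (h x h1 h2)

open Classical in
/-- the two-strand error of one bump, off the bad event -/
theorem two_one {T : Temp} {Q : Cap} {t0 mL mR : ℤ} {A n : ℕ} (G : S7.Geo T Q t0 mL mR A n)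
    {κ ρ0 s N m : ℕ} {γ CT : ℝ} (hκ : 5 ≤ κ)
    (S : Setup T Q t0 (Q.y0 - n) mL m κ (n / 4) ρ0 (2 * s + 1)) (hs8 : 8 ≤ s)
    (hmR : mL + 16 * κ * m ≤ mR)
    (hCT : 2 * (CT * (ρ0 : ℝ)) + 2 ≤ n) (hN : (A + 1) * n ≤ N) {ω : Conf} (hω : ω ∈ DD T.V)
    (hbad : ¬ BadE T Q N κ s ρ0 (2 * s + 1) 686000000 γ CT ω) {j J : ℕ} (hj : 1 ≤ j) (hjJ : j ≤ J)
    (hH : Q.Has T.V t0 ω J) (i : Fin m) :
    ∑ x ∈ (finite_OE T (Q.Ej T.V t0 ω J)).toFinset,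
        |fL (OE T (Q.Ej T.V t0 ω J)) (gpart (inJ Q T.V t0 ω J)
          (bump κ (ctr (Q.cj T.V t0 ω j) mL κ i))) (cutf (OE T (Q.Ej T.V t0 ω J)) s)
          (pot (OE T (Q.Ej T.V t0 ω J)) (gpart (inJ Q T.V t0 ω J)
            (bump κ (ctr (Q.cj T.V t0 ω j) mL κ i)))) x| *
        (if dn (pS (Q.cj T.V t0 ω j) mL κ i) x ≤ n / 4 ∧
          SW.TwoVisit (fun _ : Fin 1 => box x (2 * s + 1 + 1)) (SW.res T.V (box x ρ0) ω)
          then 1 else 0) ≤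
        CT * (((N : ℝ) / κ) ^ γ * (N : ℝ) ^ (-(γ ^ 2 / 128))) := by
  have hjH : Q.Has T.V t0 ω j := has_mono hjJ hH
  have g := cj_good hj hjH
  have hOf : (OE T (Q.Ej T.V t0 ω J)).Finite := oe_finite T _
  have hcut : IsCut (OE T (Q.Ej T.V t0 ω J)) s (32 ^ 4) (cutf (OE T (Q.Ej T.V t0 ω J)) s) :=
    cutf_isCut (exists_notMem hOf) hs8 le_rfl
  by_contra hcon
  push Not at hcon
  apply hbad
  refine ⟨OE T (Q.Ej T.V t0 ω J), pS (Q.cj T.V t0 ω j) mL κ i, gpart (inJ Q T.V t0 ω J)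
    (bump κ (ctr (Q.cj T.V t0 ω j) mL κ i)), pot (OE T (Q.Ej T.V t0 ω J))
    (gpart (inJ Q T.V t0 ω J) (bump κ (ctr (Q.cj T.V t0 ω j) mL κ i))),
    cutf (OE T (Q.Ej T.V t0 ω J)) s, hOf, cp_OE hω S.h0 J,
    pS_notMem S hω hj hjJ hjH i.2, hcut, ?_, pot_spec hOf _, lt_of_lt_of_le hcon ?_⟩
  · intro y
    refine bump_dens hκ (fun y hy => ctr_dn S hω g i.2 ?_)
    rw [mem_box'] at hy ⊢
    push_cast
    constructor <;> omega
  · obtain ⟨m1, m2, m3, m4⟩ := mid_pS S hω g i.2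
    have q1 := G.l
    have q3 := G.wid
    have q4 := G.hgt
    have q5 := G.top
    have q6 := G.r
    have hN' : ((A : ℤ) + 1) * n ≤ N := by exact_mod_cast hN
    have hN'' : (A : ℤ) * n + n ≤ N := by linarith
    refine sum_ite_le (fun x => abs_nonneg _) (fun x _ hx => ?_)
    obtain ⟨hx2, hx3⟩ := hx
    refine ⟨?_, ?_, hx3⟩
    · have h1 := T802.dn_le' hx2
      rw [mem_box', abs_le, abs_le]
      simp only
      refine ⟨⟨?_, ?_⟩, ?_, ?_⟩ <;> omega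
    · have h1 := dF_cap G (p := pS (Q.cj T.V t0 ω j) mL κ i) (x := x) (by omega) (by omega) m3 m4 hx2
      have h2 : (n : ℝ) ≤ 2 * dF T.faceSet x + 1 := by exact_mod_cast h1
      linarith

open Classical in
/-- **one evaluation, deterministic**, off the bad event -/
theorem det_one : ∃ β : ℝ, 0 < β ∧ ∃ K : ℝ, 0 < K ∧
    ∀ (T : Temp) (Q : Cap) (t0 mL mR : ℤ) (A n : ℕ), S7.Geo T Q t0 mL mR A n →
    ∀ (κ ρ0 s N : ℕ) (γ CT : ℝ), 5 ≤ κ → 80 * κ ≤ n → 2 * s + 1 ≤ ρ0 → 8 * ρ0 + 16 ≤ n → 8 ≤ s →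
    8 * s ≤ κ → 2 * (CT * (ρ0 : ℝ)) + 2 ≤ n → (A + 1) * n ≤ N →
    ∀ ω ∈ DD T.V, ¬ BadE T Q N κ s ρ0 (2 * s + 1) 686000000 γ CT ω →
    ∀ j J : ℕ, 1 ≤ j → j ≤ J → Q.Has T.V t0 ω J →
    ∀ l ∈ Loops ω, (∃ q ∈ l, q.1 = Q.x0 + 1) →
    |mass ω (S743.phi (Q.cj T.V t0 ω j) mL (mm mL mR κ) κ) l -
        (if upS Q ω (Q.cj T.V t0 ω J) l then 1 else 0)| ≤
      |mass ω (fx T (Q.Ej T.V t0 ω J) (Q.cj T.V t0 ω j) mL (mm mL mR κ) κ s) l| +
      K * ((κ : ℝ) / n) ^ β + CT * (((N : ℝ) / κ) ^ γ * (N : ℝ) ^ (-(γ ^ 2 / 128))) +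
      K * (((n : ℝ) * κ)⁻¹ *
        ∑ i : Fin (mm mL mR κ), ((bad2 Q T.V t0 ω j J mL κ i).card : ℝ)) := by
  obtain ⟨β, hβ, K, hK, hev⟩ := eval_sweep
  refine ⟨β, hβ, K * (32 ^ 4 + 1) * (28 ^ β + 16000000 * 32), by positivity, ?_⟩
  intro T Q t0 mL mR A n G κ ρ0 s N γ CT hκ h80 hD hρ hs8 hsκ hCT hN ω hω hbad j J hj hjJ hH l hl hlq
  obtain ⟨hm1, hm2, hm3⟩ := mm_spec (κ := κ) (n := n) (by omega) (by omega) G.m
  have S := mk_setup G (κ := κ) (ρ0 := ρ0) (D := 2 * s + 1) (by omega) h80 hD hρ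
  generalize mm mL mR κ = m at *
  have hOf : (OE T (Q.Ej T.V t0 ω J)).Finite := oe_finite T _
  have hcut : IsCut (OE T (Q.Ej T.V t0 ω J)) s (32 ^ 4) (cutf (OE T (Q.Ej T.V t0 ω J)) s) :=
    cutf_isCut (exists_notMem hOf) hs8 le_rfl
  have h := hev T Q t0 (Q.y0 - n) mL m κ (n / 4) ρ0 (2 * s + 1) S ω hω j J hj hjJ hH l hl hlq s
    (32 ^ 4) (cutf (OE T (Q.Ej T.V t0 ω J)) s)
    (pot (OE T (Q.Ej T.V t0 ω J)) (S743.phi (Q.cj T.V t0 ω j) mL m κ))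
    (fun i => pot (OE T (Q.Ej T.V t0 ω J)) (gpart (inJ Q T.V t0 ω J)
      (bump κ (ctr (Q.cj T.V t0 ω j) mL κ i)))) hκ hm1
    (by omega) (by omega) (by omega) le_rfl hcut (pot_spec hOf _) (fun i => pot_spec hOf _)
  have e1 := num1 (κ := κ) (n := n) (β := β) (K := K * (32 ^ 4 + 1)) hβ (by positivity) (by omega)
    (by omega)
  have hσ : 0 ≤ ∑ i : Fin m, ((bad2 Q T.V t0 ω j J mL κ i).card : ℝ) :=
    Finset.sum_nonneg fun _ _ => by positivity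
  have e3 := num3 (κ := κ) (n := n) (m := m) (K := K * (32 ^ 4 + 1))
    (σ := ∑ i : Fin m, ((bad2 Q T.V t0 ω j J mL κ i).card : ℝ)) (by positivity) hσ (by omega)
    (by omega) hm3
  have hone := fun i : Fin m => two_one G hκ S hs8 hm2 hCT hN hω hbad hj hjJ hH i
  have hm0 : (0 : ℝ) < m := by exact_mod_cast hm1
  have e2 := mul_le_mul_of_nonneg_left (Finset.sum_le_sum fun (i : Fin m) (_ : i ∈ univ) => hone i)
    (inv_nonneg.2 hm0.le)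
  rw [Finset.sum_const, Finset.card_univ, Fintype.card_fin, nsmul_eq_mul, ← mul_assoc,
    inv_mul_cancel₀ hm0.ne', one_mul] at e2
  have hx0 : 0 ≤ ((κ : ℝ) / n) ^ β := by positivity
  have hy0 : 0 ≤ ((n : ℝ) * κ)⁻¹ * ∑ i : Fin m, ((bad2 Q T.V t0 ω j J mL κ i).card : ℝ) :=
    mul_nonneg (by positivity) hσ
  generalize ((n : ℝ) * κ)⁻¹ * ∑ i : Fin m, ((bad2 Q T.V t0 ω j J mL κ i).card : ℝ) = y at *
  generalize ((κ : ℝ) / n) ^ β = x at *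
  have hK0 : 0 ≤ K * (32 ^ 4 + 1) := by positivity
  have h28 : (0 : ℝ) ≤ 28 ^ β := by positivity
  have e1' : K * (32 ^ 4 + 1) * 28 ^ β * x ≤ K * (32 ^ 4 + 1) * (28 ^ β + 16000000 * 32) * x :=
    mul_le_mul_of_nonneg_right (mul_le_mul_of_nonneg_left (by linarith) hK0) hx0
  have e3' : K * (32 ^ 4 + 1) * (16000000 * 32) * y ≤
      K * (32 ^ 4 + 1) * (28 ^ β + 16000000 * 32) * y :=
    mul_le_mul_of_nonneg_right (mul_le_mul_of_nonneg_left (by linarith) hK0) hy0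
  refine h.trans ?_
  refine add_le_add (add_le_add (add_le_add le_rfl (e1.trans e1')) e2) (e3.trans e3')

end Vale.Agent.P155.S743
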