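import Vale.Agent.P155.S743.Eval
import Vale.Agent.P155.S7.Iface

/-!
# P155, TIGHT, (S5): the evaluations in probability, at the stages of the sweep
-/

namespace Vale.Agent.P155.S743

open Finset J T905 HT T802 T862 G45

variable {T : Temp} {Q : Cap} {t0 mL mR : ℤ}

theorem n_le_R {R n A : ℕ} (hfit : Skel.Fits T R) (G : S7.Geo T Q t0 mL mR A n) : n ≤ R := by
  have hx := G.l
  have hm := G.m
  have hr := G.r
  have hy := Q.hy0
  have hy1 := Q.hy1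
  have h1 := hfit (G.far (Q.x0 - n, Q.y0) le_rfl (by simp only; omega) (by simp only; omega)
    (by simp only; omega))
  have h2 := hfit (G.far (Q.x1 + n, Q.y0) (by simp only; omega) le_rfl (by simp only; omega)
    (by simp only; omega))
  have h1' := mem_box'.1 (show (Q.x0 - n, Q.y0) ∈ box (0, 0) R by exact_mod_cast h1)
  have h2' := mem_box'.1 (show (Q.x1 + n, Q.y0) ∈ box (0, 0) R by exact_mod_cast h2)
  simp only [abs_le, sub_zero] at h1' h2'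
  omega

theorem fits_mono {R R' : ℕ} (hfit : Skel.Fits T R) (h : R ≤ R') : Skel.Fits T R' := by
  intro f hf
  have h1 := mem_box'.1 (show f ∈ box (0, 0) R by exact_mod_cast hfit hf)
  have : f ∈ box (0, 0) R' := by
    rw [mem_box']
    have : (R : ℤ) ≤ R' := by exact_mod_cast h
    exact ⟨h1.1.trans this, h1.2.trans this⟩
  exact_mod_cast this

/-- the boxes of the bumps are in a box around `p_0` of the size of the cap -/
theorem ctr_sub {yb xa : ℤ} {m κ d ρ0 D n A : ℕ} (S : Setup T Q t0 yb xa m κ d ρ0 D)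
    (G : S7.Geo T Q t0 mL mR A n) {ω : Conf} (hω : ω ∈ DD T.V) {K : Set Pt} (g : Q.Good T.V ω K)
    (hm : 1 ≤ m) (i : Fin m) {n0 : ℕ} (hn0 : A * n ≤ n0) :
    box (ctr K xa κ i) κ ⊆ box (pS K xa κ 0) n0 := by
  intro f hf
  have hf2 : f ∈ box (ctr K xa κ i) (2 * κ) := by
    rw [mem_box'] at hf ⊢
    push_cast
    constructor <;> omega
  have h1 := ctr_Rg S hω g i.2 hf2
  have h2 := ctr_box hf2
  obtain ⟨h3, _, h4, h5⟩ := strip_spec S hω g i.2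
  have h6 := mid_pS S hω g (i := 0) (by omega)
  obtain ⟨r1, r2, r3, r4⟩ := h1
  obtain ⟨m1, m2, m3, m4⟩ := h6
  have hw := G.wid
  have hh := G.hgt
  have s1 := S.left
  have s2 := S.right
  have hy1 := Q.hy1
  have hn0' : (A * n : ℤ) ≤ n0 := by exact_mod_cast hn0
  rw [mem_box', abs_le, abs_le]
  refine ⟨⟨?_, ?_⟩, ?_, ?_⟩ <;> omega

/-- the stage of the bumps above `c_i` at time `j ≥ i` -/
theorem stage_fx {xa : ℤ} {m κ s i j : ℕ} (hi : 1 ≤ i) (hij : i ≤ j) :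
    Stage T.V (Q.Xj T.V t0 j) (fun ω => Q.Has T.V t0 ω i)
      (fun ω => fx T (Q.Ej T.V t0 ω j) (Q.cj T.V t0 ω i) xa m κ s) := by
  refine stage hij ?_ ?_ ?_
  · intro ω hω ω' hω' hh h
    simp only [OnE.Ej hω hω' h, cj_onE hi hij hω hω' h hh]
  · intro ω _ ω' _ _ h
    simp only [Uns.Ej h, Uns.cj h]
  · intro ω _ _
    refine finite_lap (oe_finite T (Q.Ej T.V t0 ω j)) (fun x hx => ?_)
    rw [(pot_spec (oe_finite T _) _).off x hx, mul_zero]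

open Classical in
/-- **evaluation of the bumps above `c_i` at time `j`** in probability -/
theorem eval_pr (hME : ME2) {a0 : ℝ} (ha0 : 0 < a0) (A : ℕ) {a : ℝ} (ha : 0 < a)
    (ha1 : 4 * a ≤ min a0 1) : ∃ c > (0 : ℝ), ∃ C : ℝ, 0 ≤ C ∧ ∃ R0 : ℕ, 1 ≤ R0 ∧
    ∀ (R n : ℕ) (T : Temp) (Q : Cap) (t0 mL mR : ℤ), R0 ≤ R → Skel.Fits T R → (R : ℝ) ^ a0 ≤ n →
    S7.Geo T Q t0 mL mR A n → ∀ (yb xa : ℤ) (m κ d ρ0 D : ℕ), Setup T Q t0 yb xa m κ d ρ0 D →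
    5 ≤ κ → 1 ≤ m → ∀ (i j : ℕ), 1 ≤ i → i ≤ j → ∀ (e0 t : ℝ), 0 < t → 0 ≤ e0 →
    (∀ ω ∈ DD T.V, Q.Has T.V t0 ω i → pair (phi (Q.cj T.V t0 ω i) xa m κ)
      (pot (OE T (Q.Ej T.V t0 ω j)) (phi (Q.cj T.V t0 ω i) xa m κ)) ≤ e0) →
    ∀ (Qs : Conf → Prop), UInv T.V Qs → (∀ ω ∈ DD T.V, Qs ω → Q.Has T.V t0 ω i) →
    ∀ (l : Conf → Set Pt), (∀ ω ∈ DD T.V, Qs ω → l ω ∈ Loops ω) →
    Pr T.V (fun ω => Qs ω ∧ t < |mass ω (fx T (Q.Ej T.V t0 ω j) (Q.cj T.V t0 ω i) xa m κ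
      ⌈((2 * (A + 1) * R : ℕ) : ℝ) ^ a⌉₊) (l ω)|) ≤
      (t ^ 2)⁻¹ * (e0 + C * ((n : ℝ) / κ) ^ 12 * (R : ℝ) ^ (-c)) := by
  obtain ⟨c, hc, C, hC, R0, hR0, hME⟩ := hME 1 1 a (min a0 1) ha ha1 (min_le_right _ _)
  obtain ⟨K, hK⟩ : ∃ K : ℕ, K = 2 * (A + 1) := ⟨_, rfl⟩
  have hK1 : 1 ≤ K := by omega
  have hK1r : (1 : ℝ) ≤ K := by exact_mod_cast hK1
  refine ⟨min c 1, lt_min hc one_pos, 2 * C * (16000000 * (K : ℝ) ^ 6) ^ 2, by positivity, R0, hR0, ?_⟩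
  intro R n T Q t0 mL mR hR hfit hn G yb xa m κ d ρ0 D S hκ hm i j hi hij e0 t ht he0 hE Qs hQ hQD
    l hl
  rw [← hK]
  have hR1 : 1 ≤ R := hR0.trans hR
  have hR1r : (1 : ℝ) ≤ R := by exact_mod_cast hR1
  have hR0r : (0 : ℝ) < R := by linarith
  have hnR := n_le_R hfit G
  have hRK : R ≤ K * R := Nat.le_mul_of_pos_left _ hK1
  have hKR1 : (1 : ℝ) ≤ ((K * R : ℕ) : ℝ) := by
    have : 1 ≤ K * R := hR1.trans hRK
    exact_mod_cast this
  have hn1 : 1 ≤ n := by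
    have h1 : (1 : ℝ) ≤ n := (Real.one_le_rpow hR1r ha0.le).trans hn
    exact_mod_cast h1
  have hκ0 : (0 : ℝ) < κ := by
    have : 0 < κ := by omega
    exact_mod_cast this
  have hn0 : (0 : ℝ) < n := by exact_mod_cast hn1
  -- `κ ≤ K n`
  have hκn : κ ≤ K * n := by
    have s1 := S.left
    have s2 := S.right
    have hw := G.wid
    have h1 : (16 * κ * 1 : ℤ) ≤ 16 * κ * m :=
      mul_le_mul_of_nonneg_left (by exact_mod_cast hm) (by positivity)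
    have h2 : (κ : ℤ) ≤ A * n := by omega
    have h3 : κ ≤ A * n := by exact_mod_cast h2
    refine h3.trans (Nat.mul_le_mul_right _ (by omega))
  obtain ⟨B, hB0, hBE, hmain⟩ := hME (K * R) (hR.trans hRK) T (fits_mono hfit hRK)
  have hscale : ((K * R : ℕ) : ℝ) ^ (min a0 1) ≤ ((K * n : ℕ) : ℝ) := by
    push_cast
    rw [Real.mul_rpow (by positivity) (by positivity)]
    have h1 : (K : ℝ) ^ (min a0 1) ≤ K := by
      calc (K : ℝ) ^ (min a0 1) ≤ (K : ℝ) ^ (1 : ℝ) :=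
            Real.rpow_le_rpow_of_exponent_le hK1r (min_le_right _ _)
        _ = K := Real.rpow_one _
    have h2 : (R : ℝ) ^ (min a0 1) ≤ n :=
      (Real.rpow_le_rpow_of_exponent_le hR1r (min_le_left _ _)).trans hn
    exact mul_le_mul h1 h2 (by positivity) (by positivity)
  set Λ : ℝ := 16000000 * (((K * n : ℕ) : ℝ) / κ) ^ 6 with hΛ
  have hKn0 : (0 : ℝ) < ((K * n : ℕ) : ℝ) := by
    have : 0 < K * n := by positivity
    exact_mod_cast this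
  have hΛ0 : 0 < Λ := by positivity
  set ε : ℝ := C * ((K * R : ℕ) : ℝ) ^ (-c) with hε
  have hatom : ∀ ω ∈ DD T.V, Q.Has T.V t0 ω i →
      cEx T.V (Q.Xj T.V t0 j) (fun ω' => hf ω' (fx T (Q.Ej T.V t0 ω j) (Q.cj T.V t0 ω i) xa m κ
        ⌈((K * R : ℕ) : ℝ) ^ a⌉₊) ^ 2) ω ≤
      2 / Real.pi * pair (phi (Q.cj T.V t0 ω i) xa m κ)
        (pot (OE T (Q.Ej T.V t0 ω j)) (phi (Q.cj T.V t0 ω i) xa m κ)) + Λ ^ 2 * ε +
      cEx T.V (Q.Xj T.V t0 j) (fun ω' => Λ ^ 2 * B ω') ω := by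
    intro ω hω hh
    have g := cj_good hi hh
    set KK := Q.cj T.V t0 ω i with hKK
    set O := OE T (Q.Ej T.V t0 ω j) with hO
    have hbump := phi_isBump (K := KK) (xa := xa) hκ hm (p0 := pS KK xa κ 0) hκn
      (fun k => ctr_sub S G hω g hm k (Nat.mul_le_mul_right _ (by omega)))
    have hpsi : IsBump (pS KK xa κ 0) (K * n) (1 / ((K * n : ℕ) : ℝ) ^ 2)
        (fun x => Λ⁻¹ * phi KK xa m κ x) := by
      constructor
      · intro y hy
        show Λ⁻¹ * phi KK xa m κ y = 0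
        rw [hbump.1 y hy, mul_zero]
      · intro a' b' hab y
        have h1 := hbump.2 a' b' hab y
        rw [D_smul, abs_mul, abs_of_pos (inv_pos.2 hΛ0)]
        calc Λ⁻¹ * |(Dx^[a'] (Dy^[b'] (phi KK xa m κ))) y|
            ≤ Λ⁻¹ * (Λ / ((K * n : ℕ) : ℝ) ^ 2 * (((K * n : ℕ) : ℝ)⁻¹) ^ (a' + b')) :=
              mul_le_mul_of_nonneg_left h1 (by positivity)
          _ = _ := by field_simp
    have hgreen := green_smul Λ⁻¹ (pot_spec (oe_finite T (Q.Ej T.V t0 ω j)) (phi KK xa m κ))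
    have h2 := (hmain (Q.Xj T.V t0 j) (isExpl_Xj Q T.V t0 j) ω hω O (pS KK xa κ 0) (K * n)
      (fun x => Λ⁻¹ * phi KK xa m κ x) (fun x => Λ⁻¹ * pot O (phi KK xa m κ) x)
      (fun f hf => hf.1) (cp_OE hω S.h0 j) (fun v hv => hin hω j hv)
      (pS_notMem S hω hi hij hh (by omega)) hscale (Nat.mul_le_mul_left _ hnR) hpsi hgreen).2
    have h3 := atom_moment hΛ0 h2
    rw [E.cEx_const_mul]
    exact h3
  have key := one_eval_pr (stage_fx (T := T) (Q := Q) (t0 := t0) (xa := xa) (m := m) (κ := κ)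
    (s := ⌈((K * R : ℕ) : ℝ) ^ a⌉₊) hi hij)
    (e := fun ω => 2 / Real.pi * pair (phi (Q.cj T.V t0 ω i) xa m κ)
        (pot (OE T (Q.Ej T.V t0 ω j)) (phi (Q.cj T.V t0 ω i) xa m κ)))
    (B := fun ω => Λ ^ 2 * B ω) (δ := Λ ^ 2 * ε) (by positivity)
    (fun ω => mul_nonneg (by positivity) (hB0 ω)) hatom hQ hQD l hl ht
  refine key.trans (mul_le_mul_of_nonneg_left ?_ (by positivity))
  have hE1 : Ex T.V (fun ω => if Q.Has T.V t0 ω i then
      2 / Real.pi * pair (phi (Q.cj T.V t0 ω i) xa m κ)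
        (pot (OE T (Q.Ej T.V t0 ω j)) (phi (Q.cj T.V t0 ω i) xa m κ)) else 0) ≤ e0 := by
    refine Ex_le_const he0 (fun ω hω => ?_)
    split_ifs with hh
    · have h1 := hE ω hω hh
      have h2 : 2 / Real.pi ≤ 1 := by
        rw [div_le_one Real.pi_pos]
        linarith [Real.pi_gt_three]
      have h3 : 0 < 2 / Real.pi := by positivity
      nlinarith
    · exact he0
  have hE2 : Ex T.V (fun ω => Λ ^ 2 * B ω) ≤ Λ ^ 2 * (C * (R : ℝ) ^ (-(min c 1))) := by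
    have h1 : Ex T.V (fun ω => Λ ^ 2 * B ω) = Λ ^ 2 * Ex T.V B := avg_mul_left _ _ _
    rw [h1]
    refine mul_le_mul_of_nonneg_left (hBE.trans (mul_le_mul_of_nonneg_left ?_ hC)) (by positivity)
    calc ((K * R : ℕ) : ℝ) ^ (-(1 : ℝ)) ≤ (R : ℝ) ^ (-(1 : ℝ)) :=
          Real.rpow_le_rpow_of_nonpos hR0r (by exact_mod_cast hRK) (by norm_num)
      _ ≤ _ := Real.rpow_le_rpow_of_exponent_le hR1r (by linarith [min_le_right c 1])
  have hE3 : Λ ^ 2 * ε ≤ Λ ^ 2 * (C * (R : ℝ) ^ (-(min c 1))) := by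
    refine mul_le_mul_of_nonneg_left (mul_le_mul_of_nonneg_left ?_ hC) (by positivity)
    calc ((K * R : ℕ) : ℝ) ^ (-c) ≤ (R : ℝ) ^ (-c) :=
          Real.rpow_le_rpow_of_nonpos hR0r (by exact_mod_cast hRK) (by linarith)
      _ ≤ _ := Real.rpow_le_rpow_of_exponent_le hR1r (by linarith [min_le_left c 1])
  have hfin : 2 * C * (16000000 * (K : ℝ) ^ 6) ^ 2 * ((n : ℝ) / κ) ^ 12 * (R : ℝ) ^ (-(min c 1)) =
      2 * (Λ ^ 2 * (C * (R : ℝ) ^ (-(min c 1)))) := by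
    rw [hΛ]
    push_cast
    ring
  rw [hfin]
  linarith

end Vale.Agent.P155.S743
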