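import Vale.Agent.P155.S743.Tower
import Vale.Agent.P155.T802.Seq
import Vale.Agent.P155.T862.Cont

/-!
# P155, TIGHT, (S5): the stages of the sweep

At time `j` everything which is a function of `E_j` and of the edges at `E_j` is constant on the
atoms of `X_j`, and what depends on the superposition only is unsigned invariant.
-/

namespace Vale.Agent.P155.S743

open Finset J T905 HT T802 T862

variable {V : Finset Pt} {Q : Cap} {t0 : ℤ} {ω ω' : Conf}

/-! ### atoms -/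

theorem atom_mem {j : ℕ} (h : ω' ∈ atom V (Q.Xj V t0 j) ω) :
    ω' ∈ DD V ∧ OnE (Q.Ej V t0 ω j) ω ω' := by
  obtain ⟨h1, h2⟩ := J.mem_atom.1 h
  exact ⟨h1, onE_of_agree h2⟩

theorem has_imp {i j : ℕ} (hij : i ≤ j) (hω : ω ∈ DD V) (hω' : ω' ∈ DD V)
    (h : OnE (Q.Ej V t0 ω j) ω ω') (hh : Q.Has V t0 ω i) : Q.Has V t0 ω' i := by
  classical
  have h1 := (T802.tau_spec hh).1
  refine has_iff.2 ⟨Q.tau V t0 ω i, ?_⟩
  have h2 : Q.cnt V t0 ω' (Q.tau V t0 ω i) = Q.cnt V t0 ω (Q.tau V t0 ω i) := by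
    unfold Cap.cnt
    rw [OnE.card hω hω' h (T862.tau_mono hij)]
  rw [h2, h1]

theorem onE_symm {j : ℕ} (hω : ω ∈ DD V) (hω' : ω' ∈ DD V) (h : OnE (Q.Ej V t0 ω j) ω ω') :
    OnE (Q.Ej V t0 ω' j) ω' ω := by
  rw [OnE.Ej hω hω' h]
  exact h.symm

theorem has_onE {i j : ℕ} (hij : i ≤ j) (hω : ω ∈ DD V) (hω' : ω' ∈ DD V)
    (h : OnE (Q.Ej V t0 ω j) ω ω') : Q.Has V t0 ω' i ↔ Q.Has V t0 ω i :=
  ⟨has_imp hij hω' hω (onE_symm hω hω' h), has_imp hij hω hω' h⟩

theorem cj_onE {i j : ℕ} (hi : 1 ≤ i) (hij : i ≤ j) (hω : ω ∈ DD V) (hω' : ω' ∈ DD V)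
    (h : OnE (Q.Ej V t0 ω j) ω ω') (hh : Q.Has V t0 ω i) : Q.cj V t0 ω' i = Q.cj V t0 ω i := by
  have h0 := tau_pos hi hh
  have h1 : OnE (Q.Ej V t0 ω i) ω ω' := h.mono (T862.Ej_mono hij)
  have h2 := OnE.tau hω hω' h1
  unfold Cap.cj
  rw [h2]
  exact OnE.C h1 _ (by omega)

/-! ### tops -/

theorem hedge_onE {E K : Set Pt} (hω : ω ∈ DD V) (hω' : ω' ∈ DD V) (h : OnE E ω ω')
    (hK : K ⊆ E) (x y : ℤ) : hedge ω' K x y ↔ hedge ω K x y := by
  have i1 := (mem_PM.1 (Finset.mem_product.1 hω).1).invol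
  have i2 := (mem_PM.1 (Finset.mem_product.1 hω).2).invol
  have i1' := (mem_PM.1 (Finset.mem_product.1 hω').1).invol
  have i2' := (mem_PM.1 (Finset.mem_product.1 hω').2).invol
  unfold hedge
  refine and_congr_right (fun hh => ?_)
  rcases hh with hh | hh
  · obtain ⟨h1, h2⟩ := h _ (hK hh)
    rw [h1, h2]
  · obtain ⟨h1, h2⟩ := h _ (hK hh)
    have e1 : ω'.1 (x, y) = (x + 1, y) ↔ ω.1 (x, y) = (x + 1, y) := by
      constructor
      · intro h3
        have h4 := i1' (x, y)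
        rw [h3, h1] at h4
        rw [← h4, i1]
      · intro h3
        have h4 := i1 (x, y)
        rw [h3, ← h1] at h4
        rw [← h4, i1']
    have e2 : ω'.2 (x, y) = (x + 1, y) ↔ ω.2 (x, y) = (x + 1, y) := by
      constructor
      · intro h3
        have h4 := i2' (x, y)
        rw [h3, h2] at h4
        rw [← h4, i2]
      · intro h3
        have h4 := i2 (x, y)
        rw [h3, ← h2] at h4
        rw [← h4, i2']
    rw [e1, e2]

theorem topE_onE {E K : Set Pt} (hω : ω ∈ DD V) (hω' : ω' ∈ DD V) (h : OnE E ω ω')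
    (hK : K ⊆ E) (x : ℤ) : topE ω' K x = topE ω K x := by
  unfold topE
  congr 1
  ext y
  exact hedge_onE hω hω' h hK x y

theorem hedge_uns (h : Uns ω ω') (K : Set Pt) (x y : ℤ) : hedge ω' K x y ↔ hedge ω K x y := by
  unfold hedge
  refine and_congr_right (fun _ => ?_)
  rcases h (x, y) with ⟨h1, h2⟩ | ⟨h1, h2⟩
  · rw [h1, h2]
  · rw [h1, h2]; exact or_comm

theorem topE_uns (h : Uns ω ω') (K : Set Pt) (x : ℤ) : topE ω' K x = topE ω K x := by
  unfold topE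
  congr 1
  ext y
  exact hedge_uns h K x y

/-! ### stages -/

open Classical in
/-- **the stage at time `j`**: `f` a function of the superposition which is constant on the atoms
of `X_j` -/
theorem stage {i j : ℕ} (hij : i ≤ j) {f : Conf → Pt → ℝ}
    (hfA : ∀ ω ∈ DD V, ∀ ω' ∈ DD V, Q.Has V t0 ω i → OnE (Q.Ej V t0 ω j) ω ω' → f ω' = f ω)
    (hfU : ∀ ω ∈ DD V, ∀ ω' ∈ DD V, Q.Has V t0 ω i → Uns ω ω' → f ω' = f ω)
    (hfin : ∀ ω ∈ DD V, Q.Has V t0 ω i → (f ω).support.Finite) :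
    Stage V (Q.Xj V t0 j) (fun ω => Q.Has V t0 ω i) f where
  expl := isExpl_Xj Q V t0 j
  domA := by
    intro ω hω ω' h
    obtain ⟨h1, h2⟩ := atom_mem h
    exact has_onE hij hω h1 h2
  fA := by
    intro ω hω hh ω' h
    obtain ⟨h1, h2⟩ := atom_mem h
    exact hfA ω hω ω' h1 hh h2
  domU := by
    intro ω _ ω' _ h
    exact propext (Uns.has (ω := ω) (ω' := ω') h i)
  fU := by
    intro ω hω hh ω' hω' h
    exact hfU ω hω ω' hω' hh h
  fin := hfin

end Vale.Agent.P155.S743
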